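import Vale.Agent.P217.H934.Cons
import Mathlib

/-!
# P217 (helper934): the Serre tensor ideals of equivariant modules, abstract form
-/

namespace Vale.Agent.P217.H934

open Topology TensorProduct EqModule

variable {R : Type} [CommRing R] {𝔾 : Type*} [Group 𝔾] [TopologicalSpace 𝔾]
  {J : Ideal R} {π : 𝔾 →* RingAut R}

/-- the invariant radical ideals form a finite chain of primes. -/
structure IChain {R : Type} [CommRing R] {𝔾 : Type*} [Group 𝔾] (π : 𝔾 →* RingAut R) (n : ℕ)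
    (I : ℕ → Ideal R) : Prop where
  classify : ∀ A : Ideal R, A.IsRadical → (∀ g, ∀ r ∈ A, π g r ∈ A) → A = ⊤ ∨ ∃ h ≤ n, A = I h
  prime : ∀ h ≤ n, (I h).IsPrime
  inv : ∀ h ≤ n, ∀ g, ∀ r ∈ I h, π g r ∈ I h
  lt : ∀ h h', h < h' → h' ≤ n → I h < I h'

/-! ### the standard Serre tensor ideals -/

omit [TopologicalSpace 𝔾] [Group 𝔾] in
theorem smul_tensor_zero {M N : Type*} [AddCommGroup M] [AddCommGroup N] [Module R M] [Module R N]
    (a : R) (ha : ∀ m : M, a • m = 0) (x : M ⊗[R] N) : a • x = 0 := by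
  induction x using TensorProduct.induction_on with
  | zero => exact smul_zero _
  | tmul m n => rw [TensorProduct.smul_tmul', ha, TensorProduct.zero_tmul]
  | add x y hx hy => rw [smul_add, hx, hy, add_zero]

theorem isSerreB_pow (A : Ideal R) :
    IsSerreB {M : EqModule J π | ∃ k : ℕ, A ^ k ≤ Module.annihilator R M.carrier} where
  zero M hM := ⟨0, fun a _ => Module.mem_annihilator.2 fun m => Subsingleton.elim _ _⟩
  exact := by
    intro M' M M'' f g _ _ hf hfg hg
    constructor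
    · rintro ⟨k, hk⟩
      refine ⟨⟨k, fun a ha => Module.mem_annihilator.2 fun m => hf ?_⟩,
        ⟨k, fun a ha => Module.mem_annihilator.2 fun m => ?_⟩⟩
      · rw [map_smul, map_zero]
        exact Module.mem_annihilator.1 (hk ha) _
      · obtain ⟨m, rfl⟩ := hg m
        rw [← map_smul, Module.mem_annihilator.1 (hk ha) _, map_zero]
    · rintro ⟨⟨k, hk⟩, ⟨l, hl⟩⟩
      refine ⟨k + l, ?_⟩
      rw [pow_add, Ideal.mul_le]
      intro r hr s hs
      refine Module.mem_annihilator.2 fun m => ?_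
      have h1 : g (s • m) = 0 := by
        rw [map_smul]
        exact Module.mem_annihilator.1 (hl hs) _
      obtain ⟨m', hm'⟩ := (hfg _).1 h1
      rw [mul_smul, ← hm', ← map_smul, Module.mem_annihilator.1 (hk hr) _, map_zero]
  tensor := by
    rintro M N T hT ⟨k, hk⟩
    refine ⟨k, fun a ha => ?_⟩
    rw [hT.ann_eq, Module.mem_annihilator]
    exact smul_tensor_zero a (Module.mem_annihilator.1 (hk ha))

theorem pow_iff [IsNoetherianRing R] (A : Ideal R) (M : EqModule J π) :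
    (∃ k : ℕ, A ^ k ≤ Module.annihilator R M.carrier) ↔
      A ≤ (Module.annihilator R M.carrier).radical := by
  constructor
  · rintro ⟨k, hk⟩ a ha
    exact ⟨k, hk (Ideal.pow_mem_pow ha k)⟩
  · intro h
    obtain ⟨k, hk⟩ := Ideal.exists_radical_pow_le_of_fg (Module.annihilator R M.carrier)
      (IsNoetherian.noetherian _)
    exact ⟨k, (Ideal.pow_right_mono h k).trans hk⟩

/-! ### closure properties -/

theorem IsSerreB.torsion [IsNoetherianRing R] {𝒞 : Set (EqModule J π)}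
    (h𝒞 : IsSerreB 𝒞) : IsTorsionB 𝒞 where
  zero := h𝒞.zero
  quotient M N f hf hs hM := by
    have hS : ∀ g, ∀ m ∈ LinearMap.ker f, M.ρ g m ∈ LinearMap.ker f := by
      intro g m hm
      rw [LinearMap.mem_ker] at hm ⊢
      rw [hf, hm, map_zero]
    refine ((h𝒞.exact (M.sub (LinearMap.ker f) hS) M N (LinearMap.ker f).subtype f
      (fun _ _ => rfl) hf (LinearMap.ker f).injective_subtype ?_ hs).1 hM).2
    intro m
    constructor
    · intro hm
      exact ⟨⟨m, hm⟩, rfl⟩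
    · rintro ⟨m, rfl⟩
      exact m.2
  extension M' M M'' f g h1 h2 h3 h4 h5 h6 h7 := (h𝒞.exact M' M M'' f g h1 h2 h3 h4 h5).2 ⟨h6, h7⟩
  tensor := h𝒞.tensor

namespace IsTorsionB

variable {𝒞 : Set (EqModule J π)} (h𝒞 : IsTorsionB 𝒞)

include h𝒞

theorem quot (M : EqModule J π) (S : Submodule R M.carrier)
    (hS : ∀ g, ∀ m ∈ S, M.ρ g m ∈ S) (hM : M ∈ 𝒞) : M.quot S hS ∈ 𝒞 :=
  h𝒞.quotient M (M.quot S hS) S.mkQ (fun _ _ => rfl) S.mkQ_surjective hM

theorem sub_quot [IsNoetherianRing R] (M : EqModule J π) (S : Submodule R M.carrier)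
    (hS : ∀ g, ∀ m ∈ S, M.ρ g m ∈ S) (h1 : M.sub S hS ∈ 𝒞) (h2 : M.quot S hS ∈ 𝒞) : M ∈ 𝒞 := by
  refine h𝒞.extension (M.sub S hS) M (M.quot S hS) S.subtype S.mkQ (fun _ _ => rfl)
    (fun _ _ => rfl) S.injective_subtype ?_ S.mkQ_surjective h1 h2
  exact LinearMap.exact_subtype_mkQ S

end IsTorsionB

/-! ### annihilators -/

theorem ann_inv (M : EqModule J π) (g : 𝔾) {r : R} (hr : r ∈ Module.annihilator R M.carrier) :
    π g r ∈ Module.annihilator R M.carrier := by
  rw [Module.mem_annihilator] at hr ⊢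
  intro m
  have h := M.semilinear g r (M.ρ g⁻¹ m)
  rw [ρ_apply_inv, hr, map_zero] at h
  exact h.symm

theorem rad_inv (M : EqModule J π) (g : 𝔾) {r : R}
    (hr : r ∈ (Module.annihilator R M.carrier).radical) :
    π g r ∈ (Module.annihilator R M.carrier).radical := by
  obtain ⟨k, hk⟩ := hr
  exact ⟨k, by rw [← map_pow]; exact ann_inv M g hk⟩

theorem IChain.cases {n : ℕ} {I : ℕ → Ideal R} (hC : IChain π n I) (M : EqModule J π) :
    Subsingleton M.carrier ∨ ∃ h ≤ n, (Module.annihilator R M.carrier).radical = I h := by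
  rcases hC.classify _ (Ideal.radical_isRadical _) (fun g r hr => rad_inv M g hr) with h | h
  · left
    rw [Ideal.radical_eq_top] at h
    exact Module.annihilator_eq_top_iff.1 h
  · exact Or.inr h

theorem mem_ann_quot (M : EqModule J π) (S : Submodule R M.carrier)
    (hS : ∀ g, ∀ m ∈ S, M.ρ g m ∈ S) (r : R) :
    r ∈ Module.annihilator R (M.quot S hS).carrier ↔ ∀ m : M.carrier, r • m ∈ S := by
  have h : r ∈ Module.annihilator R (M.carrier ⧸ S) ↔ ∀ m : M.carrier, r • m ∈ S := by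
    rw [Module.mem_annihilator]
    constructor
    · intro h m
      have h1 := h (S.mkQ m)
      rwa [← map_smul, Submodule.mkQ_apply, Submodule.Quotient.mk_eq_zero] at h1
    · intro h x
      obtain ⟨m, rfl⟩ := S.mkQ_surjective x
      rw [← map_smul, Submodule.mkQ_apply, Submodule.Quotient.mk_eq_zero]
      exact h m
  exact h

theorem mem_ann_sub [IsNoetherianRing R] (M : EqModule J π) (S : Submodule R M.carrier)
    (hS : ∀ g, ∀ m ∈ S, M.ρ g m ∈ S) (r : R) :
    r ∈ Module.annihilator R (M.sub S hS).carrier ↔ ∀ m ∈ S, r • m = 0 := by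
  have h : r ∈ Module.annihilator R S ↔ ∀ m ∈ S, r • m = 0 := by
    rw [Module.mem_annihilator]
    constructor
    · intro h m hm
      exact congrArg Subtype.val (h ⟨m, hm⟩)
    · intro h x
      exact Subtype.ext (h x x.2)
  exact h

theorem rad_quot (M : EqModule J π) (A : Ideal R) :
    (Module.annihilator R (M.carrier ⧸ (A • ⊤ : Submodule R M.carrier))).radical =
      (Module.annihilator R M.carrier ⊔ A).radical := by
  rw [← PrimeSpectrum.zeroLocus_eq_iff, ← Module.support_eq_zeroLocus, Module.support_quotient,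
    Module.support_eq_zeroLocus, PrimeSpectrum.zeroLocus_sup]

theorem smul_top_inv {A : Ideal R} (hA : ∀ (g : 𝔾), ∀ r ∈ A, π g r ∈ A) (M : EqModule J π) :
    ∀ g, ∀ m ∈ (A • ⊤ : Submodule R M.carrier), M.ρ g m ∈ (A • ⊤ : Submodule R M.carrier) := by
  intro g m hm
  have h := ρ_pow_smul_mem hA M g 1 (m := m)
  rw [pow_one] at h
  exact h hm

/-! ### tensor products and quotients of the unit -/

theorem equivariant_lift {M N T : EqModule J π} (b : M.carrier →ₗ[R] N.carrier →ₗ[R] T.carrier)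
    (hb : ∀ g m n, b (M.ρ g m) (N.ρ g n) = T.ρ g (b m n)) :
    IsEquivariant (M := M.tensor N) (N := T) (TensorProduct.lift b) := by
  intro g x
  have key : ∀ x : M.carrier ⊗[R] N.carrier,
      TensorProduct.lift b (TensorProduct.map (M.lin g) (N.lin g) x) =
        T.ρ g (TensorProduct.lift b x) := by
    intro x
    induction x using TensorProduct.induction_on with
    | zero => rw [map_zero, map_zero, map_zero]
    | tmul m n => rw [TensorProduct.map_tmul, TensorProduct.lift.tmul, TensorProduct.lift.tmul,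
        lin_apply, lin_apply, hb]
    | add x y hx hy => rw [map_add, map_add, hx, hy, map_add, map_add]
  exact key x

/-- `Q` is the object `R/P` with quotient map `q`. -/
structure IsRes (P : Ideal R) (Q : EqModule J π) (q : R →ₗ[R] Q.carrier) : Prop where
  surj : Function.Surjective q
  ker : ∀ r, q r = 0 ↔ r ∈ P
  equiv : ∀ g r, Q.ρ g (q r) = q (π g r)

theorem exists_res (hc : ∀ (r : R) (k : ℕ), ∀ᶠ g in 𝓝 (1 : 𝔾), π g r - r ∈ J ^ k)
    (P : Ideal R) (hPi : ∀ g, ∀ r ∈ P, π g r ∈ P) :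
    ∃ (Q : EqModule J π) (q : R →ₗ[R] Q.carrier), IsRes P Q q := by
  refine ⟨(unit π hc).quot P hPi, P.mkQ, P.mkQ_surjective, fun r => ?_, fun _ _ => rfl⟩
  have h := Submodule.Quotient.mk_eq_zero P (x := r)
  exact h

theorem IsRes.smul_eq_zero {P : Ideal R} {Q : EqModule J π} {q : R →ₗ[R] Q.carrier}
    (hq : IsRes P Q q) {a : R} (ha : a ∈ P) (x : Q.carrier) : a • x = 0 := by
  obtain ⟨r, rfl⟩ := hq.surj x
  rw [← map_smul, hq.ker]
  exact P.mul_mem_right r ha

theorem IsRes.annihilator {P : Ideal R} {Q : EqModule J π} {q : R →ₗ[R] Q.carrier}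
    (hq : IsRes P Q q) : Module.annihilator R Q.carrier = P := by
  ext a
  rw [Module.mem_annihilator]
  constructor
  · intro h
    have h1 := h (q 1)
    rwa [← map_smul, hq.ker, smul_eq_mul, mul_one] at h1
  · exact fun ha x => hq.smul_eq_zero ha x

/-! ### the unit lies in the ideal generated by a module of full support -/

section Unit

variable [IsNoetherianRing R] {𝒞 : Set (EqModule J π)} (h𝒞 : IsTorsionB 𝒞)

include h𝒞

/-- `R/P` lies in `𝒞` if `𝒞` contains a module with `Ann M ≤ P` and all modules with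
`P < rad Ann`. -/
theorem unit_mem [IsTopologicalGroup 𝔾] (hJ : ∀ (g : 𝔾), ∀ r ∈ J, π g r ∈ J)
    {P : Ideal R} (hP : P.IsPrime) {Q : EqModule J π} {q : R →ₗ[R] Q.carrier}
    (hq : IsRes P Q q) {M : EqModule J π}
    (hM : M ∈ 𝒞) (hMP : Module.annihilator R M.carrier ≤ P)
    (hbig : ∀ N : EqModule J π, P < (Module.annihilator R N.carrier).radical → N ∈ 𝒞) : Q ∈ 𝒞 := by
  -- a nonzero functional
  obtain ⟨φ, hφ⟩ : ∃ φ : M.carrier →ₗ[R] Q.carrier, φ ≠ 0 := by
    by_contra hcon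
    push Not at hcon
    have hsub : Subsingleton (M.carrier →ₗ[R] Q.carrier) :=
      ⟨fun a b => by rw [hcon a, hcon b]⟩
    obtain ⟨r, hr, hreg⟩ := IsSMulRegular.subsingleton_linearMap_iff.1 hsub
    have h1 := fun x => hq.smul_eq_zero (hMP hr) x
    have h2 : q 1 = 0 := hreg (by show r • q 1 = r • 0; rw [h1, h1])
    exact hP.ne_top ((Ideal.eq_top_iff_one _).2 ((hq.ker 1).1 h2))
  obtain ⟨m₀, hm₀⟩ : ∃ m, φ m ≠ 0 := by
    by_contra hcon
    push Not at hcon
    exact hφ (LinearMap.ext hcon)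
  obtain ⟨r₀, hr₀⟩ := hq.surj (φ m₀)
  -- evaluation
  let ev : (M.tensor (hom hJ M Q)).carrier →ₗ[R] Q.carrier :=
    TensorProduct.lift (LinearMap.applyₗ : M.carrier →ₗ[R]
      (M.carrier →ₗ[R] Q.carrier) →ₗ[R] Q.carrier)
  have hevt : ev (m₀ ⊗ₜ[R] φ) = φ m₀ := rfl
  have hev : IsEquivariant ev := by
    refine equivariant_lift (M := M) (N := hom hJ M Q) (T := Q) LinearMap.applyₗ ?_
    intro g m (ψ : M.carrier →ₗ[R] Q.carrier)
    have h : (conj M Q g ψ) (M.ρ g m) = Q.ρ g (ψ m) := by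
      rw [conj_apply, ρ_inv_apply]
    exact h
  -- the image
  have hS : ∀ g, ∀ x ∈ LinearMap.range ev, Q.ρ g x ∈ LinearMap.range ev := by
    rintro g _ ⟨y, rfl⟩
    exact ⟨(M.tensor (hom hJ M Q)).ρ g y, hev g y⟩
  have h1 : Q.sub (LinearMap.range ev) hS ∈ 𝒞 := by
    refine h𝒞.quotient (M.tensor (hom hJ M Q)) (Q.sub (LinearMap.range ev) hS)
      ev.rangeRestrict ?_ ev.surjective_rangeRestrict (h𝒞.tensor _ _ _ (isTensor_tensor _ _) hM)
    intro g x
    exact Subtype.ext (hev g x)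
  have h2 : Q.quot (LinearMap.range ev) hS ∈ 𝒞 := by
    refine hbig _ (lt_of_le_of_ne ?_ ?_)
    · intro a ha
      refine Ideal.le_radical ((mem_ann_quot _ _ _ _).2 fun x => ?_)
      rw [hq.smul_eq_zero ha]
      exact Submodule.zero_mem _
    · intro hcon
      have h3 : r₀ ∈ (Module.annihilator R (Q.quot (LinearMap.range ev) hS).carrier).radical := by
        refine Ideal.le_radical ((mem_ann_quot _ _ _ _).2 fun y => ?_)
        obtain ⟨s, rfl⟩ := hq.surj y
        have h4 : r₀ • q s = s • φ m₀ := by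
          rw [← hr₀, ← map_smul, ← map_smul, smul_eq_mul, smul_eq_mul, mul_comm]
        rw [h4]
        exact Submodule.smul_mem _ _ ⟨_, hevt⟩
      rw [← hcon, ← hq.ker, hr₀] at h3
      exact hm₀ h3
  exact h𝒞.sub_quot Q (LinearMap.range ev) hS h1 h2

/-- modules killed by `P`. -/
theorem killed_mem {P : Ideal R} {Q : EqModule J π} {q : R →ₗ[R] Q.carrier}
    (hq : IsRes P Q q) (hQ : Q ∈ 𝒞) (N : EqModule J π)
    (hN : P ≤ Module.annihilator R N.carrier) : N ∈ 𝒞 := by
  have hker : LinearMap.ker q ≤ LinearMap.ker (LinearMap.lsmul R N.carrier) := by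
    intro r hr
    rw [LinearMap.mem_ker, hq.ker] at hr
    rw [LinearMap.mem_ker]
    ext x
    exact Module.mem_annihilator.1 (hN hr) x
  let e : (R ⧸ LinearMap.ker q) ≃ₗ[R] Q.carrier := q.quotKerEquivOfSurjective hq.surj
  let b : Q.carrier →ₗ[R] N.carrier →ₗ[R] N.carrier :=
    ((LinearMap.ker q).liftQ (LinearMap.lsmul R N.carrier) hker).comp e.symm.toLinearMap
  have hb : ∀ (r : R) (n : N.carrier), b (q r) n = r • n := by
    intro r n
    have h1 : e.symm (q r) = (LinearMap.ker q).mkQ r := by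
      rw [LinearEquiv.symm_apply_eq]
      rfl
    show ((LinearMap.ker q).liftQ (LinearMap.lsmul R N.carrier) hker) (e.symm (q r)) n = r • n
    rw [h1]
    rfl
  refine h𝒞.quotient (Q.tensor N) N (TensorProduct.lift b)
    (equivariant_lift b ?_) ?_ (h𝒞.tensor _ _ _ (isTensor_tensor _ _) hQ)
  · intro g m n
    obtain ⟨r, rfl⟩ := hq.surj m
    rw [hq.equiv, hb, hb, N.semilinear]
  · intro n
    exact ⟨q 1 ⊗ₜ[R] n, (hb 1 n).trans (one_smul R n)⟩

/-- modules killed by a power of `P`. -/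
theorem pow_killed_mem {P : Ideal R} (hPi : ∀ (g : 𝔾), ∀ r ∈ P, π g r ∈ P) {Q : EqModule J π}
    {q : R →ₗ[R] Q.carrier} (hq : IsRes P Q q) (hQ : Q ∈ 𝒞) (k : ℕ) :
    ∀ (N : EqModule J π), P ^ k ≤ Module.annihilator R N.carrier → N ∈ 𝒞 := by
  induction k with
  | zero =>
    intro N hN
    rw [pow_zero, Ideal.one_eq_top, top_le_iff] at hN
    exact h𝒞.zero N (Module.annihilator_eq_top_iff.1 hN)
  | succ k ih =>
    intro N hN
    have hS := smul_top_inv hPi N
    refine h𝒞.sub_quot N (P • ⊤) hS (ih _ fun a ha => ?_) (killed_mem h𝒞 hq hQ _ fun a ha => ?_)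
    · rw [mem_ann_sub]
      intro m hm
      refine Submodule.smul_induction_on hm ?_ ?_
      · intro r hr x _
        rw [← mul_smul]
        refine Module.mem_annihilator.1 (hN ?_) x
        rw [pow_succ]
        exact Ideal.mul_mem_mul ha hr
      · intro x y hx hy
        rw [smul_add, hx, hy, add_zero]
    · rw [mem_ann_quot]
      intro m
      exact Submodule.smul_mem_smul ha trivial

end Unit

/-! ### the classification -/

section Main

variable [IsNoetherianRing R] [IsTopologicalGroup 𝔾] {n : ℕ} {I : ℕ → Ideal R}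

theorem IChain.step (hC : IChain π n I) (hJ : ∀ (g : 𝔾), ∀ r ∈ J, π g r ∈ J)
    (hc : ∀ (r : R) (k : ℕ), ∀ᶠ g in 𝓝 (1 : 𝔾), π g r - r ∈ J ^ k)
    {𝒞 : Set (EqModule J π)} (h𝒞 : IsTorsionB 𝒞) (d : ℕ) :
    ∀ h, h + d = n → ∀ M : EqModule J π, M ∈ 𝒞 →
      (Module.annihilator R M.carrier).radical = I h →
      ∀ N : EqModule J π, I h ≤ (Module.annihilator R N.carrier).radical → N ∈ 𝒞 := by
  induction d with
  | zero =>
    intro h hh M hM hr N hN
    have hhn : h ≤ n := by omega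
    obtain ⟨Q, q, hq⟩ := exists_res hc (I h) (hC.inv h hhn)
    have hQ : Q ∈ 𝒞 := by
      refine unit_mem h𝒞 hJ (hC.prime h hhn) hq hM (Ideal.le_radical.trans hr.le) ?_
      intro N' hN'
      rcases hC.cases N' with h1 | ⟨h', hh', h1⟩
      · exact h𝒞.zero _ h1
      · exfalso
        rw [h1] at hN'
        rcases Nat.lt_or_ge h h' with h2 | h2
        · omega
        · rcases h2.lt_or_eq with h3 | h3
          · exact absurd (hN'.trans (hC.lt _ _ h3 hhn)) (lt_irrefl _)
          · rw [h3] at hN'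
            exact lt_irrefl _ hN'
    obtain ⟨k, hk⟩ := (pow_iff (I h) N).2 hN
    exact pow_killed_mem h𝒞 (hC.inv h hhn) hq hQ k N hk
  | succ d ih =>
    intro h hh M hM hr N hN
    have hhn : h < n := by omega
    obtain ⟨Q, q, hq⟩ := exists_res hc (I h) (hC.inv h hhn.le)
    have hS := smul_top_inv (hC.inv (h + 1) hhn) M
    have hM1 : 𝒞 (M.quot (I (h + 1) • ⊤) hS) := h𝒞.quot M _ hS hM
    have hr1 : (Module.annihilator R (M.quot (I (h + 1) • ⊤) hS).carrier).radical = I (h + 1) := by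
      have h2 := rad_quot M (I (h + 1))
      have h3 : Module.annihilator R M.carrier ⊔ I (h + 1) = I (h + 1) :=
        sup_eq_right.2 ((Ideal.le_radical.trans hr.le).trans
          (hC.lt h (h + 1) (Nat.lt_succ_self h) hhn).le)
      rw [h3, (hC.prime (h + 1) hhn).radical] at h2
      exact h2
    have hQ : Q ∈ 𝒞 := by
      refine unit_mem h𝒞 hJ (hC.prime h hhn.le) hq hM (Ideal.le_radical.trans hr.le) ?_
      intro N' hN'
      rcases hC.cases N' with h1 | ⟨h', hh', h1⟩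
      · exact h𝒞.zero _ h1
      · rw [h1] at hN'
        have h2 : h < h' := by
          by_contra h2
          rw [not_lt] at h2
          rcases h2.lt_or_eq with h3 | h3
          · exact absurd (hN'.trans (hC.lt _ _ h3 hhn.le)) (lt_irrefl _)
          · rw [h3] at hN'
            exact lt_irrefl _ hN'
        refine ih (h + 1) (by omega) _ hM1 hr1 N' ?_
        rw [h1]
        rcases (Nat.succ_le_of_lt h2).lt_or_eq with h3 | h3
        · exact (hC.lt _ _ h3 hh').le
        · rw [← h3]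
    obtain ⟨k, hk⟩ := (pow_iff (I h) N).2 hN
    exact pow_killed_mem h𝒞 (hC.inv h hhn.le) hq hQ k N hk

/-- every torsion tensor ideal is one of the standard ones. -/
theorem IChain.classification (hC : IChain π n I) (hJ : ∀ (g : 𝔾), ∀ r ∈ J, π g r ∈ J)
    (hc : ∀ (r : R) (k : ℕ), ∀ᶠ g in 𝓝 (1 : 𝔾), π g r - r ∈ J ^ k)
    {𝒞 : Set (EqModule J π)} (h𝒞 : IsTorsionB 𝒞) :
    (∀ M, M ∈ 𝒞 ↔ Subsingleton M.carrier) ∨
      ∃ h ≤ n, ∀ M, M ∈ 𝒞 ↔ ∃ k : ℕ, I h ^ k ≤ Module.annihilator R M.carrier := by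
  classical
  by_cases hex : ∃ h, h ≤ n ∧ ∃ M, M ∈ 𝒞 ∧ (Module.annihilator R M.carrier).radical = I h
  · right
    obtain ⟨h1, M, hM, hr⟩ := Nat.find_spec hex
    set h := Nat.find hex with hh
    refine ⟨h, h1, fun N => ?_⟩
    rw [pow_iff]
    constructor
    · intro hN
      rcases hC.cases N with h2 | ⟨h', hh', h2⟩
      · rw [Module.annihilator_eq_top_iff.2 h2, Ideal.radical_top]
        exact le_top
      · have h3 : h ≤ h' := Nat.find_min' hex ⟨hh', N, hN, h2⟩
        rw [h2]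
        rcases h3.lt_or_eq with h4 | h4
        · exact (hC.lt _ _ h4 hh').le
        · rw [h4]
    · exact hC.step hJ hc h𝒞 (n - h) h (by omega) M hM hr N
  · left
    intro M
    refine ⟨fun hM => ?_, h𝒞.zero M⟩
    rcases hC.cases M with h2 | ⟨h', hh', h2⟩
    · exact h2
    · exact absurd ⟨h', hh', M, hM, h2⟩ hex

/-- the ideals `I_0, …, I_n, R`. -/
def ext (n : ℕ) (I : ℕ → Ideal R) (h : ℕ) : Ideal R := if h ≤ n then I h else ⊤

theorem IChain.classification_torsion (hC : IChain π n I) (hJ : ∀ (g : 𝔾), ∀ r ∈ J, π g r ∈ J)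
    (hc : ∀ (r : R) (k : ℕ), ∀ᶠ g in 𝓝 (1 : 𝔾), π g r - r ∈ J ^ k)
    (𝒞 : Set (EqModule J π)) :
    IsTorsionB 𝒞 ↔
      ∃ h ≤ n + 1, ∀ M, M ∈ 𝒞 ↔ ∃ k : ℕ, ext n I h ^ k ≤ Module.annihilator R M.carrier := by
  constructor
  · intro h𝒞
    rcases hC.classification hJ hc h𝒞 with h1 | ⟨h, hh, h1⟩
    · refine ⟨n + 1, le_rfl, fun M => ?_⟩
      rw [h1, ext, if_neg (by omega)]
      constructor
      · intro hM
        exact ⟨0, by rw [Module.annihilator_eq_top_iff.2 hM]; exact le_top⟩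
      · rintro ⟨k, hk⟩
        rw [Ideal.top_pow, top_le_iff] at hk
        exact Module.annihilator_eq_top_iff.1 hk
    · refine ⟨h, hh.trans (Nat.le_succ n), fun M => ?_⟩
      rw [ext, if_pos hh]
      exact h1 M
  · rintro ⟨h, -, h1⟩
    have h2 : 𝒞 = {M | ∃ k : ℕ, ext n I h ^ k ≤ Module.annihilator R M.carrier} := Set.ext h1
    rw [h2]
    exact (isSerreB_pow _).torsion

theorem IChain.classification_serre (hC : IChain π n I) (hJ : ∀ (g : 𝔾), ∀ r ∈ J, π g r ∈ J)
    (hc : ∀ (r : R) (k : ℕ), ∀ᶠ g in 𝓝 (1 : 𝔾), π g r - r ∈ J ^ k)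
    (𝒞 : Set (EqModule J π)) :
    IsSerreB 𝒞 ↔
      ∃ h ≤ n + 1, ∀ M, M ∈ 𝒞 ↔ ∃ k : ℕ, ext n I h ^ k ≤ Module.annihilator R M.carrier := by
  constructor
  · intro h𝒞
    exact (hC.classification_torsion hJ hc 𝒞).1 h𝒞.torsion
  · rintro ⟨h, -, h1⟩
    have h2 : 𝒞 = {M | ∃ k : ℕ, ext n I h ^ k ≤ Module.annihilator R M.carrier} := Set.ext h1
    rw [h2]
    exact isSerreB_pow _

/-- the standard classes are strictly decreasing. -/
theorem IChain.strict (hC : IChain π n I)
    (hc : ∀ (r : R) (k : ℕ), ∀ᶠ g in 𝓝 (1 : 𝔾), π g r - r ∈ J ^ k) (h : ℕ) (hh : h ≤ n) :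
    (∀ M : EqModule J π, (∃ k : ℕ, ext n I (h + 1) ^ k ≤ Module.annihilator R M.carrier) →
      ∃ k : ℕ, ext n I h ^ k ≤ Module.annihilator R M.carrier) ∧
    ∃ M : EqModule J π, (∃ k : ℕ, ext n I h ^ k ≤ Module.annihilator R M.carrier) ∧
      ¬ ∃ k : ℕ, ext n I (h + 1) ^ k ≤ Module.annihilator R M.carrier := by
  have hle : ext n I h ≤ ext n I (h + 1) := by
    rw [ext, ext, if_pos hh]
    split_ifs with h1
    · exact (hC.lt _ _ (Nat.lt_succ_self h) h1).le
    · exact le_top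
  have hnle : ¬ ext n I (h + 1) ≤ I h := by
    rw [ext]
    split_ifs with h1
    · exact (hC.lt _ _ (Nat.lt_succ_self h) h1).not_ge
    · intro h2
      exact (hC.prime h hh).ne_top (top_le_iff.1 h2)
  refine ⟨?_, ?_⟩
  · rintro M ⟨k, hk⟩
    exact ⟨k, (Ideal.pow_right_mono hle k).trans hk⟩
  · obtain ⟨Q, q, hq⟩ := exists_res hc (I h) (hC.inv h hh)
    refine ⟨Q, ⟨1, ?_⟩, ?_⟩
    · rw [pow_one, hq.annihilator, ext, if_pos hh]
    · rintro ⟨k, hk⟩
      rw [hq.annihilator] at hk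
      apply hnle
      have h3 : ext n I (h + 1) ≤ (I h).radical := fun a ha => ⟨k, hk (Ideal.pow_mem_pow ha k)⟩
      rwa [(hC.prime h hh).radical] at h3

/-- the tensor ideal generated by a module. -/
theorem IChain.generated (hC : IChain π n I) (hJ : ∀ (g : 𝔾), ∀ r ∈ J, π g r ∈ J)
    (hc : ∀ (r : R) (k : ℕ), ∀ᶠ g in 𝓝 (1 : 𝔾), π g r - r ∈ J ^ k) (M N : EqModule J π) :
    (∀ 𝒞 : Set (EqModule J π), IsTorsionB 𝒞 → M ∈ 𝒞 → N ∈ 𝒞) ↔
      Module.annihilator R M.carrier ≤ (Module.annihilator R N.carrier).radical := by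
  constructor
  · intro h
    have h1 := h _ (isSerreB_pow (Module.annihilator R M.carrier)).torsion
      ⟨1, by rw [pow_one]⟩
    exact (pow_iff _ N).1 h1
  · intro h 𝒞 h𝒞 hM
    have h' := Ideal.radical_mono h
    rw [Ideal.radical_idem] at h'
    obtain ⟨d, -, hd⟩ := (hC.classification_torsion hJ hc 𝒞).1 h𝒞
    rw [hd, pow_iff] at hM ⊢
    exact hM.trans h'

end Main

end Vale.Agent.P217.H934
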