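import Vale.Agent.P217.H934.Defs

/-!
# P217 (helper934): bundled equivariant modules
-/

namespace Vale.Agent.P217.H934

open Topology TensorProduct

variable {R : Type} [CommRing R] {𝔾 : Type*} [Group 𝔾] [TopologicalSpace 𝔾]

/-- A finitely generated `R`-module with a semilinear action of the group `𝔾`, where `𝔾` acts on
`R` through `π`; the action is continuous: every element is moved by an element of `J ^ k • M` only,
if `g` is close to `1` (for the discrete topology on `𝔾` this is no condition). -/
structure EqModule (J : Ideal R) (π : 𝔾 →* RingAut R) where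
  /-- the underlying module -/
  carrier : Type
  [addCommGroup : AddCommGroup carrier]
  [module : Module R carrier]
  [finite : Module.Finite R carrier]
  /-- the action of `𝔾` -/
  ρ : 𝔾 → carrier ≃+ carrier
  ρ_one : ∀ m, ρ 1 m = m
  ρ_mul : ∀ g h m, ρ (g * h) m = ρ g (ρ h m)
  semilinear : ∀ g (r : R) m, ρ g (r • m) = π g r • ρ g m
  continuous : ∀ m (k : ℕ), ∀ᶠ g in 𝓝 (1 : 𝔾), ρ g m - m ∈ (J ^ k • ⊤ : Submodule R carrier)

attribute [instance] EqModule.addCommGroup EqModule.module EqModule.finite

namespace EqModule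

variable {J : Ideal R} {π : 𝔾 →* RingAut R}

/-- `f` commutes with the actions of `𝔾`. -/
def IsEquivariant {M N : EqModule J π} (f : M.carrier →ₗ[R] N.carrier) : Prop :=
  ∀ g m, f (M.ρ g m) = N.ρ g (f m)

/-- the annihilator ideal of `M`. -/
def ann (M : EqModule J π) : Ideal R := Module.annihilator R M.carrier

/-- `T` is the tensor product `M ⊗_R N` with the diagonal action `g (m ⊗ n) = g m ⊗ g n`, by means
of the bilinear map `b(m, n) = m ⊗ n`. -/
def IsTensor (M N T : EqModule J π) : Prop :=
  ∃ b : M.carrier →ₗ[R] N.carrier →ₗ[R] T.carrier,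
    IsTensorProduct b ∧ ∀ g m n, T.ρ g (b m n) = b (M.ρ g m) (N.ρ g n)

end EqModule

open EqModule

/-- `𝒞` is a Serre tensor ideal (a Serre subcategory, closed under `⊗` with all objects) of the
category of finitely generated equivariant `R`-modules and equivariant `R`-linear maps: it contains
the zero modules; for every short exact sequence `0 → M' → M → M'' → 0`, `M` is in `𝒞` if and only
if `M'` and `M''` are; and `M ⊗ N` is in `𝒞` if `M` is. -/
structure IsSerreB {J : Ideal R} {π : 𝔾 →* RingAut R} (𝒞 : Set (EqModule J π)) : Prop where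
  zero : ∀ M, Subsingleton M.carrier → M ∈ 𝒞
  exact : ∀ (M' M M'' : EqModule J π) (f : M'.carrier →ₗ[R] M.carrier)
    (g : M.carrier →ₗ[R] M''.carrier), IsEquivariant f → IsEquivariant g →
    Function.Injective f → Function.Exact f g → Function.Surjective g →
    (M ∈ 𝒞 ↔ M' ∈ 𝒞 ∧ M'' ∈ 𝒞)
  tensor : ∀ M N T, IsTensor M N T → M ∈ 𝒞 → T ∈ 𝒞

/-- `𝒞` is a torsion class and a tensor ideal: as `IsSerreB`, but `𝒞` is only assumed to be
closed under quotients and extensions, not under submodules. -/
structure IsTorsionB {J : Ideal R} {π : 𝔾 →* RingAut R} (𝒞 : Set (EqModule J π)) : Prop where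
  zero : ∀ M, Subsingleton M.carrier → M ∈ 𝒞
  quotient : ∀ (M M'' : EqModule J π) (g : M.carrier →ₗ[R] M''.carrier), IsEquivariant g →
    Function.Surjective g → M ∈ 𝒞 → M'' ∈ 𝒞
  extension : ∀ (M' M M'' : EqModule J π) (f : M'.carrier →ₗ[R] M.carrier)
    (g : M.carrier →ₗ[R] M''.carrier), IsEquivariant f → IsEquivariant g →
    Function.Injective f → Function.Exact f g → Function.Surjective g →
    M' ∈ 𝒞 → M'' ∈ 𝒞 → M ∈ 𝒞
  tensor : ∀ M N T, IsTensor M N T → M ∈ 𝒞 → T ∈ 𝒞

end Vale.Agent.P217.H934
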