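import Vale.Agent.P217.H934.Bundled

/-!
# P217 (helper934): constructions with equivariant modules
-/

namespace Vale.Agent.P217.H934

open Topology TensorProduct

variable {R : Type} [CommRing R] {𝔾 : Type*} [Group 𝔾] [TopologicalSpace 𝔾]
  {J : Ideal R} {π : 𝔾 →* RingAut R}

namespace EqModule

/-- the action of `g` as a semilinear map. -/
def lin (M : EqModule J π) (g : 𝔾) : M.carrier →ₛₗ[(π g : R →+* R)] M.carrier where
  toFun := M.ρ g
  map_add' := map_add (M.ρ g)
  map_smul' := M.semilinear g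

@[simp] theorem lin_apply (M : EqModule J π) (g : 𝔾) (m : M.carrier) : M.lin g m = M.ρ g m := rfl

theorem map_lin_mul (M N : EqModule J π) (g h : 𝔾) (x : M.carrier ⊗[R] N.carrier) :
    TensorProduct.map (M.lin (g * h)) (N.lin (g * h)) x =
      TensorProduct.map (M.lin g) (N.lin g) (TensorProduct.map (M.lin h) (N.lin h) x) := by
  induction x using TensorProduct.induction_on with
  | zero => simp
  | tmul a b => simp [M.ρ_mul, N.ρ_mul]
  | add a b ha hb => simp only [map_add, ha, hb]

theorem map_lin_one (M N : EqModule J π) (x : M.carrier ⊗[R] N.carrier) :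
    TensorProduct.map (M.lin 1) (N.lin 1) x = x := by
  induction x using TensorProduct.induction_on with
  | zero => simp
  | tmul a b => simp [M.ρ_one, N.ρ_one]
  | add a b ha hb => simp only [map_add, ha, hb]

/-- The tensor product `M ⊗_R N` with the diagonal action `g (m ⊗ n) = g m ⊗ g n`. -/
noncomputable def tensor (M N : EqModule J π) : EqModule J π where
  carrier := M.carrier ⊗[R] N.carrier
  ρ g :=
    { toFun := TensorProduct.map (M.lin g) (N.lin g)
      invFun := TensorProduct.map (M.lin g⁻¹) (N.lin g⁻¹)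
      left_inv := fun x => by rw [← map_lin_mul, inv_mul_cancel, map_lin_one]
      right_inv := fun x => by rw [← map_lin_mul, mul_inv_cancel, map_lin_one]
      map_add' := map_add _ }
  ρ_one := map_lin_one M N
  ρ_mul := map_lin_mul M N
  semilinear g r m := LinearMap.map_smulₛₗ (TensorProduct.map (M.lin g) (N.lin g)) r m
  continuous m k := by
    induction m using TensorProduct.induction_on with
    | zero => simp
    | tmul a b =>
      filter_upwards [M.continuous a k, N.continuous b k] with g hg1 hg2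
      have h1 : (M.ρ g a - a) ⊗ₜ[R] N.ρ g b ∈
          (J ^ k • ⊤ : Submodule R (M.carrier ⊗[R] N.carrier)) :=
        Submodule.smul_top_le_comap_smul_top (J ^ k)
          ((TensorProduct.mk R M.carrier N.carrier).flip (N.ρ g b)) hg1
      have h2 : a ⊗ₜ[R] (N.ρ g b - b) ∈
          (J ^ k • ⊤ : Submodule R (M.carrier ⊗[R] N.carrier)) :=
        Submodule.smul_top_le_comap_smul_top (J ^ k)
          (TensorProduct.mk R M.carrier N.carrier a) hg2
      have h3 := Submodule.add_mem _ h1 h2
      rwa [TensorProduct.sub_tmul, TensorProduct.tmul_sub, sub_add_sub_cancel] at h3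
    | add a b ha hb =>
      filter_upwards [ha, hb] with g hg1 hg2
      have h3 := Submodule.add_mem _ hg1 hg2
      rwa [sub_add_sub_comm, ← map_add] at h3

theorem isTensor_tensor (M N : EqModule J π) : IsTensor M N (M.tensor N) :=
  ⟨TensorProduct.mk R M.carrier N.carrier, TensorProduct.isTensorProduct _ _ _, fun _ _ _ => rfl⟩

theorem IsTensor.ann_eq {M N T : EqModule J π} (h : IsTensor M N T) :
    Module.annihilator R T.carrier = Module.annihilator R (M.carrier ⊗[R] N.carrier) := by
  obtain ⟨b, hb, -⟩ := h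
  exact hb.equiv.annihilator_eq.symm

theorem ρ_inv_apply (M : EqModule J π) (g : 𝔾) (m : M.carrier) : M.ρ g⁻¹ (M.ρ g m) = m := by
  rw [← M.ρ_mul, inv_mul_cancel, M.ρ_one]

theorem ρ_apply_inv (M : EqModule J π) (g : 𝔾) (m : M.carrier) : M.ρ g (M.ρ g⁻¹ m) = m := by
  rw [← M.ρ_mul, mul_inv_cancel, M.ρ_one]

omit [TopologicalSpace 𝔾] in
theorem π_inv_apply (π : 𝔾 →* RingAut R) (g : 𝔾) (r : R) : π g⁻¹ (π g r) = r := by
  rw [map_inv]
  exact (π g).symm_apply_apply r

omit [TopologicalSpace 𝔾] in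
theorem π_apply_inv (π : 𝔾 →* RingAut R) (g : 𝔾) (r : R) : π g (π g⁻¹ r) = r := by
  rw [map_inv]
  exact (π g).apply_symm_apply r

/-- the unit object. -/
def unit (π : 𝔾 →* RingAut R) (hc : ∀ (r : R) (k : ℕ), ∀ᶠ g in 𝓝 (1 : 𝔾), π g r - r ∈ J ^ k) :
    EqModule J π where
  carrier := R
  ρ g := (π g : R ≃+* R).toAddEquiv
  ρ_one m := by simp
  ρ_mul g h m := by simp
  semilinear g r m := by simp
  continuous m k := by
    filter_upwards [hc m k] with g hg
    simpa using hg

/-- an equivariant submodule as an object. -/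
def sub [IsNoetherianRing R] (M : EqModule J π) (S : Submodule R M.carrier)
    (hS : ∀ g, ∀ m ∈ S, M.ρ g m ∈ S) : EqModule J π where
  carrier := S
  ρ g :=
    { toFun := fun m => ⟨M.ρ g m, hS g _ m.2⟩
      invFun := fun m => ⟨M.ρ g⁻¹ m, hS g⁻¹ _ m.2⟩
      left_inv := fun m => Subtype.ext (M.ρ_inv_apply g m)
      right_inv := fun m => Subtype.ext (M.ρ_apply_inv g m)
      map_add' := fun a b => Subtype.ext (map_add (M.ρ g) _ _) }
  ρ_one m := Subtype.ext (M.ρ_one _)
  ρ_mul g h m := Subtype.ext (M.ρ_mul g h _)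
  semilinear g r m := Subtype.ext (M.semilinear g r _)
  continuous m k := by
    obtain ⟨c, hc⟩ := Ideal.exists_pow_inf_eq_pow_smul J S
    filter_upwards [M.continuous m (k + c)] with g hg
    have h1 : M.ρ g m - m ∈ J ^ (k + c) • ⊤ ⊓ S := ⟨hg, S.sub_mem (hS g _ m.2) m.2⟩
    rw [hc (k + c) (Nat.le_add_left c k), Nat.add_sub_cancel] at h1
    have h2 : M.ρ g m - m ∈ J ^ k • S := Submodule.smul_mono le_rfl inf_le_right h1
    have h3 : (J ^ k • ⊤ : Submodule R S).map S.subtype = J ^ k • S := by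
      rw [Submodule.map_smul'', Submodule.map_top, Submodule.range_subtype]
    rw [← h3] at h2
    obtain ⟨x, hx, hx2⟩ := h2
    have h4 : (⟨M.ρ g m, hS g _ m.2⟩ : S) - m = x := Subtype.ext hx2.symm
    exact h4 ▸ hx

/-- the action on the quotient as a semilinear map. -/
def qmap (M : EqModule J π) (S : Submodule R M.carrier)
    (hS : ∀ g, ∀ m ∈ S, M.ρ g m ∈ S) (g : 𝔾) :
    (M.carrier ⧸ S) →ₛₗ[(π g : R →+* R)] (M.carrier ⧸ S) :=
  S.mapQ S (M.lin g) (fun m hm => hS g m hm)

theorem qmap_mk (M : EqModule J π) (S : Submodule R M.carrier)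
    (hS : ∀ g, ∀ m ∈ S, M.ρ g m ∈ S) (g : 𝔾) (m : M.carrier) :
    qmap M S hS g (S.mkQ m) = S.mkQ (M.ρ g m) := rfl

theorem qmap_mul (M : EqModule J π) (S : Submodule R M.carrier)
    (hS : ∀ g, ∀ m ∈ S, M.ρ g m ∈ S) (g h : 𝔾) (x : M.carrier ⧸ S) :
    qmap M S hS (g * h) x = qmap M S hS g (qmap M S hS h x) := by
  obtain ⟨x, rfl⟩ := S.mkQ_surjective x
  rw [qmap_mk, qmap_mk, qmap_mk, M.ρ_mul]

theorem qmap_one (M : EqModule J π) (S : Submodule R M.carrier)
    (hS : ∀ g, ∀ m ∈ S, M.ρ g m ∈ S) (x : M.carrier ⧸ S) : qmap M S hS 1 x = x := by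
  obtain ⟨x, rfl⟩ := S.mkQ_surjective x
  rw [qmap_mk, M.ρ_one]

/-- an equivariant quotient as an object. -/
def quot (M : EqModule J π) (S : Submodule R M.carrier)
    (hS : ∀ g, ∀ m ∈ S, M.ρ g m ∈ S) : EqModule J π where
  carrier := M.carrier ⧸ S
  ρ g :=
    { toFun := qmap M S hS g
      invFun := qmap M S hS g⁻¹
      left_inv := fun m => by rw [← qmap_mul, inv_mul_cancel, qmap_one]
      right_inv := fun m => by rw [← qmap_mul, mul_inv_cancel, qmap_one]
      map_add' := map_add _ }
  ρ_one := qmap_one M S hS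
  ρ_mul := qmap_mul M S hS
  semilinear g r m := LinearMap.map_smulₛₗ (qmap M S hS g) r m
  continuous m k := by
    obtain ⟨m, rfl⟩ := S.mkQ_surjective m
    filter_upwards [M.continuous m k] with g hg
    exact Submodule.smul_top_le_comap_smul_top (J ^ k) S.mkQ hg

theorem mkQ_equivariant (M : EqModule J π) (S : Submodule R M.carrier)
    (hS : ∀ g, ∀ m ∈ S, M.ρ g m ∈ S) : IsEquivariant (N := M.quot S hS) (M := M) S.mkQ :=
  fun _ _ => rfl

theorem subtype_equivariant [IsNoetherianRing R] (M : EqModule J π) (S : Submodule R M.carrier)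
    (hS : ∀ g, ∀ m ∈ S, M.ρ g m ∈ S) : IsEquivariant (M := M.sub S hS) (N := M) S.subtype :=
  fun _ _ => rfl

/-- conjugation action. -/
def conj (M N : EqModule J π) (g : 𝔾) (φ : M.carrier →ₗ[R] N.carrier) :
    M.carrier →ₗ[R] N.carrier where
  toFun m := N.ρ g (φ (M.ρ g⁻¹ m))
  map_add' a b := by rw [map_add, map_add, map_add]
  map_smul' r m := by
    rw [M.semilinear, map_smul, N.semilinear, π_apply_inv, RingHom.id_apply]

@[simp] theorem conj_apply (M N : EqModule J π) (g : 𝔾) (φ : M.carrier →ₗ[R] N.carrier)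
    (m : M.carrier) : conj M N g φ m = N.ρ g (φ (M.ρ g⁻¹ m)) := rfl

theorem conj_mul (M N : EqModule J π) (g h : 𝔾) (φ : M.carrier →ₗ[R] N.carrier) :
    conj M N (g * h) φ = conj M N g (conj M N h φ) := by
  ext m
  simp [N.ρ_mul, M.ρ_mul]

theorem conj_one (M N : EqModule J π) (φ : M.carrier →ₗ[R] N.carrier) : conj M N 1 φ = φ := by
  ext m
  simp [N.ρ_one, M.ρ_one]

theorem ρ_pow_smul_mem {A : Ideal R} (hA : ∀ (g : 𝔾), ∀ r ∈ A, π g r ∈ A) (M : EqModule J π)
    (g : 𝔾) (k : ℕ) {m : M.carrier} (hm : m ∈ (A ^ k • ⊤ : Submodule R M.carrier)) :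
    M.ρ g m ∈ (A ^ k • ⊤ : Submodule R M.carrier) := by
  refine Submodule.smul_induction_on (p := fun m => M.ρ g m ∈ (A ^ k • ⊤ : Submodule R M.carrier))
    hm ?_ ?_
  · intro r hr x _
    rw [M.semilinear]
    refine Submodule.smul_mem_smul ?_ trivial
    have h1 : (A ^ k).map (π g : R →+* R) ≤ A ^ k := by
      rw [Ideal.map_pow]
      exact Ideal.pow_right_mono (Ideal.map_le_iff_le_comap.2 (hA g)) k
    exact h1 (Ideal.mem_map_of_mem _ hr)
  · intro x y hx hy
    rw [map_add]
    exact Submodule.add_mem _ hx hy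

/-- the internal Hom object. -/
noncomputable def hom [IsNoetherianRing R] [IsTopologicalGroup 𝔾]
    (hJ : ∀ (g : 𝔾), ∀ r ∈ J, π g r ∈ J) (M N : EqModule J π) : EqModule J π where
  carrier := M.carrier →ₗ[R] N.carrier
  ρ g :=
    { toFun := conj M N g
      invFun := conj M N g⁻¹
      left_inv := fun φ => by rw [← conj_mul, inv_mul_cancel, conj_one]
      right_inv := fun φ => by rw [← conj_mul, mul_inv_cancel, conj_one]
      map_add' := fun φ ψ => by ext m; simp }
  ρ_one := conj_one M N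
  ρ_mul := conj_mul M N
  semilinear g r φ := by
    ext m
    exact N.semilinear g r _
  continuous φ k := by
    classical
    obtain ⟨s, hs⟩ := (Module.Finite.fg_top : (⊤ : Submodule R M.carrier).FG)
    -- evaluation at the generators
    let ev : (M.carrier →ₗ[R] N.carrier) →ₗ[R] (s → N.carrier) :=
      LinearMap.pi fun i => LinearMap.applyₗ (i : M.carrier)
    have hev : Function.Injective ev := by
      intro φ ψ h
      refine LinearMap.ext_on hs ?_
      intro x hx
      exact congrFun h ⟨x, hx⟩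
    obtain ⟨c, hc⟩ := Ideal.exists_pow_inf_eq_pow_smul J (LinearMap.range ev)
    have key : ∀ ψ : M.carrier →ₗ[R] N.carrier,
        (∀ i : s, ψ i ∈ (J ^ (k + c) • ⊤ : Submodule R N.carrier)) →
        ψ ∈ (J ^ k • ⊤ : Submodule R (M.carrier →ₗ[R] N.carrier)) := by
      intro ψ hψ
      have h1 : ev ψ ∈ (J ^ (k + c) • ⊤ : Submodule R (s → N.carrier)) := by
        have : ev ψ = ∑ i, LinearMap.single R (fun _ : s => N.carrier) i (ψ i) := by
          ext j
          simp [ev, Pi.single_apply]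
        rw [this]
        refine Submodule.sum_mem _ fun i _ => ?_
        exact Submodule.smul_top_le_comap_smul_top (J ^ (k + c))
          (LinearMap.single R (fun _ : s => N.carrier) i) (hψ i)
      have h2 : ev ψ ∈ J ^ (k + c) • ⊤ ⊓ LinearMap.range ev := ⟨h1, ψ, rfl⟩
      rw [hc (k + c) (Nat.le_add_left c k), Nat.add_sub_cancel] at h2
      have h3 : ev ψ ∈ J ^ k • LinearMap.range ev := Submodule.smul_mono le_rfl inf_le_right h2
      rw [LinearMap.range_eq_map, ← Submodule.map_smul''] at h3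
      obtain ⟨χ, hχ, h4⟩ := h3
      rwa [← hev h4]
    have h5 : ∀ᶠ g in 𝓝 (1 : 𝔾), ∀ i : s, conj M N g φ i - φ i ∈
        (J ^ (k + c) • ⊤ : Submodule R N.carrier) := by
      rw [Filter.eventually_all]
      intro i
      have h6 : Filter.Tendsto (fun g : 𝔾 => g⁻¹) (𝓝 1) (𝓝 1) := by
        simpa using (continuous_inv (G := 𝔾)).tendsto 1
      filter_upwards [h6.eventually (M.continuous (i : M.carrier) (k + c)),
        N.continuous (φ i) (k + c)] with g hg1 hg2
      have h7 : N.ρ g (φ (M.ρ g⁻¹ (i : M.carrier) - i)) ∈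
          (J ^ (k + c) • ⊤ : Submodule R N.carrier) :=
        ρ_pow_smul_mem hJ N g _ (Submodule.smul_top_le_comap_smul_top (J ^ (k + c)) φ hg1)
      have h8 := Submodule.add_mem _ h7 hg2
      rw [map_sub, map_sub, sub_add_sub_cancel] at h8
      exact h8
    filter_upwards [h5] with g hg
    exact key _ hg

end EqModule

end Vale.Agent.P217.H934
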