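import Vale.Agent.P217.H260.Defs

/-!
# P217: definitions for Morava modules and their Serre ideals (helper934)
-/

namespace Vale.Agent.P217.H934

open Topology

section General

variable {R : Type} [CommRing R] {𝔾 : Type*} [Group 𝔾] [TopologicalSpace 𝔾]

/-- `ρ` is a continuous semilinear action of the group `𝔾` on the finitely generated `R`-module
`M`, where `𝔾` acts on `R` through `π`.  Continuity: every element is moved by an element of
`J ^ k • M` only, if `g` is close to `1` (for the discrete topology on `𝔾` this is no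
condition). -/
structure IsEqModule (J : Ideal R) (π : 𝔾 →* RingAut R) (M : Type) [AddCommGroup M] [Module R M]
    (ρ : 𝔾 → M → M) : Prop where
  finite : Module.Finite R M
  one : ∀ m, ρ 1 m = m
  mul : ∀ g h m, ρ (g * h) m = ρ g (ρ h m)
  add : ∀ g m m', ρ g (m + m') = ρ g m + ρ g m'
  smul : ∀ g (r : R) m, ρ g (r • m) = π g r • ρ g m
  continuous : ∀ m (k : ℕ), ∀ᶠ g in 𝓝 (1 : 𝔾), ρ g m - m ∈ (J ^ k • ⊤ : Submodule R M)

/-- A class of `R`-modules with an operation of `𝔾`. -/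
abbrev ModuleClass (R : Type) [CommRing R] (𝔾 : Type*) :=
  ∀ (M : Type) [AddCommGroup M] [Module R M], (𝔾 → M → M) → Prop

/-- `𝒞` is a Serre tensor ideal (a Serre subcategory, closed under `⊗` with all objects) of the
category of the modules of `IsEqModule` and equivariant `R`-linear maps: it contains the zero
modules; for every short exact sequence `0 → M' → M → M'' → 0` (the maps are `f`, `g`), `M` is in
`𝒞` if and only if `M'` and `M''` are; and the tensor product `T = M ⊗_R N`, with its bilinear map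
`b` and the diagonal action, is in `𝒞` if `M` is. -/
structure IsSerreIdeal (J : Ideal R) (π : 𝔾 →* RingAut R) (𝒞 : ModuleClass R 𝔾) : Prop where
  zero : ∀ (M : Type) [AddCommGroup M] [Module R M] (ρ : 𝔾 → M → M),
    IsEqModule J π M ρ → Subsingleton M → 𝒞 M ρ
  exact : ∀ (M' M M'' : Type) [AddCommGroup M'] [Module R M'] [AddCommGroup M] [Module R M]
    [AddCommGroup M''] [Module R M''] (ρ' : 𝔾 → M' → M') (ρ : 𝔾 → M → M) (ρ'' : 𝔾 → M'' → M'')
    (f : M' →ₗ[R] M) (g : M →ₗ[R] M''),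
    IsEqModule J π M' ρ' → IsEqModule J π M ρ → IsEqModule J π M'' ρ'' →
    (∀ a m, f (ρ' a m) = ρ a (f m)) → (∀ a m, g (ρ a m) = ρ'' a (g m)) →
    Function.Injective f → Function.Exact f g → Function.Surjective g →
    (𝒞 M ρ ↔ 𝒞 M' ρ' ∧ 𝒞 M'' ρ'')
  tensor : ∀ (M N T : Type) [AddCommGroup M] [Module R M] [AddCommGroup N] [Module R N]
    [AddCommGroup T] [Module R T] (ρ : 𝔾 → M → M) (σ : 𝔾 → N → N) (τ : 𝔾 → T → T)
    (b : M →ₗ[R] N →ₗ[R] T),
    IsEqModule J π M ρ → IsEqModule J π N σ → IsEqModule J π T τ →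
    IsTensorProduct b → (∀ a m n, b (ρ a m) (σ a n) = τ a (b m n)) → 𝒞 M ρ → 𝒞 T τ

/-- `𝒞` is a torsion class and a tensor ideal: as `IsSerreIdeal`, but `𝒞` is only assumed to be
closed under quotients and extensions, not under submodules. -/
structure IsTorsionIdeal (J : Ideal R) (π : 𝔾 →* RingAut R) (𝒞 : ModuleClass R 𝔾) : Prop where
  zero : ∀ (M : Type) [AddCommGroup M] [Module R M] (ρ : 𝔾 → M → M),
    IsEqModule J π M ρ → Subsingleton M → 𝒞 M ρ
  exact : ∀ (M' M M'' : Type) [AddCommGroup M'] [Module R M'] [AddCommGroup M] [Module R M]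
    [AddCommGroup M''] [Module R M''] (ρ' : 𝔾 → M' → M') (ρ : 𝔾 → M → M) (ρ'' : 𝔾 → M'' → M'')
    (f : M' →ₗ[R] M) (g : M →ₗ[R] M''),
    IsEqModule J π M' ρ' → IsEqModule J π M ρ → IsEqModule J π M'' ρ'' →
    (∀ a m, f (ρ' a m) = ρ a (f m)) → (∀ a m, g (ρ a m) = ρ'' a (g m)) →
    Function.Injective f → Function.Exact f g → Function.Surjective g →
    (𝒞 M ρ → 𝒞 M'' ρ'') ∧ (𝒞 M' ρ' → 𝒞 M'' ρ'' → 𝒞 M ρ)
  tensor : ∀ (M N T : Type) [AddCommGroup M] [Module R M] [AddCommGroup N] [Module R N]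
    [AddCommGroup T] [Module R T] (ρ : 𝔾 → M → M) (σ : 𝔾 → N → N) (τ : 𝔾 → T → T)
    (b : M →ₗ[R] N →ₗ[R] T),
    IsEqModule J π M ρ → IsEqModule J π N σ → IsEqModule J π T τ →
    IsTensorProduct b → (∀ a m n, b (ρ a m) (σ a n) = τ a (b m n)) → 𝒞 M ρ → 𝒞 T τ

end General

variable {𝔾 : Type*} [Group 𝔾] [TopologicalSpace 𝔾]

/-- `M` is killed by a power of `I_h`, where `I_h = E₀` for `h > n` (every module is for `h = 0`,
and only the zero modules are for `h = n + 1`). -/
def HeightGE (p n : ℕ) [Fact p.Prime] (h : ℕ) (M : Type) [AddCommGroup M]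
    [Module (LT.E0 p n) M] : Prop :=
  ∃ k : ℕ, (if h ≤ n then LT.heightIdeal p n h else ⊤) ^ k ≤ Module.annihilator (LT.E0 p n) M

/-- `𝔾` acts continuously on `E₀` through `π`, by automorphisms coming from the extended Morava
stabilizer group `G_n`, and its image has finite index in the image of `G_n`. -/
def ActsThrough (p n : ℕ) [Fact p.Prime] (Γ : FormalGroup (ZMod p)) (F : FormalGroup (LT.E0 p n))
    (π : 𝔾 →* RingAut (LT.E0 p n)) : Prop :=
  π.range ≤ LT.actionGroup p n Γ F ∧ π.range.relIndex (LT.actionGroup p n Γ F) ≠ 0 ∧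
    ∀ (r : LT.E0 p n) (k : ℕ), ∀ᶠ g in 𝓝 (1 : 𝔾), π g r - r ∈ LT.heightIdeal p n n ^ k

/-- `ρ` makes `M` a finitely generated Morava module: a finitely generated `E₀`-module with a
continuous semilinear action of `𝔾` (`I_n` is the maximal ideal of `E₀`). -/
abbrev IsMoravaModule (p n : ℕ) [Fact p.Prime] (π : 𝔾 →* RingAut (LT.E0 p n)) (M : Type)
    [AddCommGroup M] [Module (LT.E0 p n) M] (ρ : 𝔾 → M → M) : Prop :=
  IsEqModule (LT.heightIdeal p n n) π M ρ

/-- `𝒞` is the class `C_h` of the finitely generated Morava modules killed by a power of `I_h`. -/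
def IsHeightClass (p n : ℕ) [Fact p.Prime] (π : 𝔾 →* RingAut (LT.E0 p n)) (h : ℕ)
    (𝒞 : ModuleClass (LT.E0 p n) 𝔾) : Prop :=
  ∀ (M : Type) [AddCommGroup M] [Module (LT.E0 p n) M] (ρ : 𝔾 → M → M),
    IsMoravaModule p n π M ρ → (𝒞 M ρ ↔ HeightGE p n h M)

end Vale.Agent.P217.H934
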