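import Vale.Agent.P217.H934.Defs

/-!
# P217: definitions for vector bundles on the strata and Landweber exactness (helper934)
-/

namespace Vale.Agent.P217.H934

/-- On the locally closed subset `V(A) ∖ V(B)` of `Spec R` the `R/A`-module `M` is a vector bundle
of rank `r`: for all prime ideals `P` with `A ⊆ P`, `B ⊄ P`, the localization of `M` at `P` is
isomorphic to the `r`-th power of the localization of `R/A`. -/
def IsBundle {R : Type} [CommRing R] (A B : Ideal R) (M : Type) [AddCommGroup M] [Module R M]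
    (r : ℕ) : Prop :=
  ∀ (P : Ideal R) [P.IsPrime], A ≤ P → ¬ B ≤ P →
    Nonempty (LocalizedModule P.primeCompl M ≃ₗ[R]
      (Fin r → LocalizedModule P.primeCompl (R ⧸ A)))

/-- The coordinates: `u_0 = p`, and `u_h` for `1 ≤ h < n`. -/
noncomputable def coord (p n : ℕ) [Fact p.Prime] (h : ℕ) : LT.E0 p n :=
  if h = 0 then (p : LT.E0 p n)
  else if hh : h - 1 < n - 1 then MvPowerSeries.X ⟨h - 1, hh⟩ else 1

/-- `(p, u_1, …, u_(n-1))` is a regular sequence on `N` (in the weak sense): `u_h` is injective on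
`N / I_h N` for all `0 ≤ h < n`. -/
def IsRegularOn (p n : ℕ) [Fact p.Prime] (N : Type*) [AddCommGroup N] [Module (LT.E0 p n) N] :
    Prop :=
  ∀ h < n, ∀ x : N, coord p n h • x ∈ (LT.heightIdeal p n h • ⊤ : Submodule (LT.E0 p n) N) →
    x ∈ (LT.heightIdeal p n h • ⊤ : Submodule (LT.E0 p n) N)

/-- Tensoring with the `E₀`-module `N` preserves the injectivity of the equivariant `E₀`-linear
maps `f : M' → M` between finitely generated Morava modules, that is, it is exact on finitely
generated Morava modules. -/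
def IsLandweberExact (p n : ℕ) [Fact p.Prime] {𝔾 : Type*} [Group 𝔾] [TopologicalSpace 𝔾]
    (π : 𝔾 →* RingAut (LT.E0 p n)) (N : Type*) [AddCommGroup N] [Module (LT.E0 p n) N] : Prop :=
  ∀ (M' M : Type) [AddCommGroup M'] [Module (LT.E0 p n) M'] [AddCommGroup M]
    [Module (LT.E0 p n) M] (ρ' : 𝔾 → M' → M') (ρ : 𝔾 → M → M) (f : M' →ₗ[LT.E0 p n] M),
    IsMoravaModule p n π M' ρ' → IsMoravaModule p n π M ρ → (∀ a m, f (ρ' a m) = ρ a (f m)) →
    Function.Injective f → Function.Injective (LinearMap.rTensor N f)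

end Vale.Agent.P217.H934
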