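import Mathlib

/-!
# P217 (helper934): vanishing of Tor by syzygies
-/

namespace Vale.Agent.P217.H934

open TensorProduct

universe v

variable {R : Type} [CommRing R]

theorem comm1 {A B C D : Type*} [AddCommGroup A] [Module R A] [AddCommGroup B] [Module R B]
    [AddCommGroup C] [Module R C] [AddCommGroup D] [Module R D]
    (f : A →ₗ[R] B) (g : C →ₗ[R] D) (x : A ⊗[R] C) :
    LinearMap.lTensor B g (LinearMap.rTensor C f x) =
      LinearMap.rTensor D f (LinearMap.lTensor A g x) := by
  rw [← LinearMap.comp_apply, ← LinearMap.comp_apply, LinearMap.lTensor_comp_rTensor,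
    LinearMap.rTensor_comp_lTensor]

variable {M M' M'' : Type*} [AddCommGroup M] [Module R M] [AddCommGroup M'] [Module R M']
  [AddCommGroup M''] [Module R M'']

/-- `Tor_1(M, N) = 0`, for a presentation `0 → K → F → N → 0` with inclusion `i`. -/
def TorOne (M : Type*) [AddCommGroup M] [Module R M] {K F : Type*} [AddCommGroup K] [Module R K]
    [AddCommGroup F] [Module R F] (i : K →ₗ[R] F) : Prop :=
  ∀ z : M ⊗[R] K, LinearMap.lTensor M i z = 0 → z = 0

section

variable {K F N : Type*} [AddCommGroup K] [Module R K] [AddCommGroup F] [Module R F]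
  [AddCommGroup N] [Module R N] [Module.Flat R F] {i : K →ₗ[R] F} {q : F →ₗ[R] N}

/-- the beginning of the long exact sequence. -/
theorem rTensor_eq_zero_of_torOne (hiq : Function.Exact i q) (hq : Function.Surjective q)
    {f : M' →ₗ[R] M} {g : M →ₗ[R] M''} (hf : Function.Injective f)
    (hfg : Function.Exact f g) (hg : Function.Surjective g) (hT : TorOne M'' i)
    (x : M' ⊗[R] N) (hx : LinearMap.rTensor N f x = 0) : x = 0 := by
  obtain ⟨y, rfl⟩ := LinearMap.lTensor_surjective M' hq x
  rw [← comm1] at hx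
  obtain ⟨z, hz⟩ := (lTensor_exact M hiq hq _).1 hx
  have h1 : LinearMap.rTensor F g (LinearMap.rTensor F f y) = 0 :=
    (rTensor_exact F hfg hg _).2 ⟨y, rfl⟩
  rw [← hz, ← comm1] at h1
  have h2 := hT _ h1
  obtain ⟨w, hw⟩ := (rTensor_exact K hfg hg _).1 h2
  rw [← hw, comm1] at hz
  have h3 := Module.Flat.rTensor_preserves_injective_linearMap (M := F) f hf hz
  rw [← h3]
  exact (lTensor_exact M' hiq hq _).2 ⟨w, rfl⟩

theorem TorOne.ext {f : M' →ₗ[R] M} {g : M →ₗ[R] M''} (hf : Function.Injective f)
    (hfg : Function.Exact f g) (hg : Function.Surjective g) (h' : TorOne M' i)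
    (h'' : TorOne M'' i) : TorOne M i := by
  intro z hz
  have h1 : LinearMap.lTensor M'' i (LinearMap.rTensor K g z) = 0 := by
    rw [comm1, hz, map_zero]
  obtain ⟨w, rfl⟩ := (rTensor_exact K hfg hg _).1 (h'' _ h1)
  rw [comm1] at hz
  have h2 := Module.Flat.rTensor_preserves_injective_linearMap (M := F) f hf
    (hz.trans (map_zero _).symm)
  rw [h' w h2, map_zero]

/-- multiplication by `c` is injective on the module. -/
def Reg (c : R) (M : Type*) [AddCommGroup M] [Module R M] : Prop := ∀ x : M, c • x = 0 → x = 0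

theorem rTensor_lsmul (c : R) (z : M ⊗[R] N) :
    LinearMap.rTensor N (LinearMap.lsmul R M c) z = c • z := by
  have h2 : LinearMap.rTensor N (LinearMap.lsmul R M c) = LinearMap.lsmul R (M ⊗[R] N) c := by
    ext m x
    simp [TensorProduct.smul_tmul']
  rw [h2]
  rfl

theorem reg_of_torOne (hiq : Function.Exact i q) (hq : Function.Surjective q) {c : R}
    {Q : Type*} [AddCommGroup Q] [Module R Q] (hc : Reg c M)
    {t : M →ₗ[R] Q} (ht : Function.Surjective t) (hex : ∀ x, t x = 0 ↔ ∃ y, c • y = x)
    (hT : TorOne Q i) : Reg c (M ⊗[R] N) := by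
  intro z hz
  rw [← rTensor_lsmul] at hz
  refine rTensor_eq_zero_of_torOne hiq hq (f := LinearMap.lsmul R M c) (g := t) ?_ ?_ ht hT z hz
  · rw [injective_iff_map_eq_zero]
    exact hc
  · intro x
    rw [hex]
    rfl

theorem TorOne.quot_step (hiq : Function.Exact i q) (hq : Function.Surjective q)
    {Q Q' : Type*} [AddCommGroup Q] [Module R Q] [AddCommGroup Q']
    [Module R Q'] {c : R} (hc : Reg c Q) {t : Q →ₗ[R] Q'} (ht : Function.Surjective t)
    (hex : ∀ x, t x = 0 ↔ ∃ y, c • y = x) (hreg : Reg c (Q ⊗[R] N)) (hT : TorOne Q i) :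
    TorOne Q' i ∧ Reg c (Q ⊗[R] K) := by
  have hexact : Function.Exact (LinearMap.lsmul R Q c) t := by
    intro x
    rw [hex]
    rfl
  have hinj : Function.Injective (LinearMap.lsmul R Q c) := by
    rw [injective_iff_map_eq_zero]
    exact hc
  constructor
  · intro z hz
    obtain ⟨y, rfl⟩ := LinearMap.rTensor_surjective K ht z
    rw [comm1] at hz
    obtain ⟨w, hw⟩ := (rTensor_exact F hexact ht _).1 hz
    rw [rTensor_lsmul] at hw
    have h1 : c • LinearMap.lTensor Q q w = 0 := by
      rw [← map_smul, hw]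
      exact (lTensor_exact Q hiq hq _).2 ⟨y, rfl⟩
    obtain ⟨v, hv⟩ := (lTensor_exact Q hiq hq _).1 (hreg _ h1)
    have h2 : LinearMap.lTensor Q i (y - c • v) = 0 := by
      rw [map_sub, map_smul, hv, hw, sub_self]
    have h3 := hT _ h2
    rw [sub_eq_zero] at h3
    rw [h3, ← rTensor_lsmul]
    exact (rTensor_exact K hexact ht _).2 ⟨v, rfl⟩
  · intro z hz
    apply hT
    have h1 : c • LinearMap.lTensor Q i z = 0 := by
      rw [← map_smul, hz, map_zero]
    rw [← rTensor_lsmul] at h1
    exact Module.Flat.rTensor_preserves_injective_linearMap (M := F)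
      (LinearMap.lsmul R Q c) hinj (h1.trans (map_zero _).symm)

/-- if multiples of the identity by the elements of `Z` factor through acyclic modules. -/
theorem TorOne.of_factor {c : R} (hreg : Reg c (M ⊗[R] K)) {Z : Ideal R} (hZ : ∃ k, c ^ k ∈ Z)
    (hfac : ∀ z : M ⊗[R] K, LinearMap.lTensor M i z = 0 → ∀ a ∈ Z, a • z = 0) : TorOne M i := by
  intro z hz
  obtain ⟨k, hk⟩ := hZ
  have h1 := hfac z hz _ hk
  have h2 : ∀ (j : ℕ) (x : M ⊗[R] K), c ^ j • x = 0 → x = 0 := by
    intro j
    induction j with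
    | zero => intro x hx; rwa [pow_zero, one_smul] at hx
    | succ j ih =>
      intro x hx
      rw [pow_succ, mul_smul] at hx
      exact hreg _ (ih _ hx)
  exact h2 k z h1

/-- `a • id_M = β ∘ α` with `α : M → L`, `Tor_1(L, N) = 0`. -/
theorem TorOne.factor {L : Type*} [AddCommGroup L] [Module R L] (hL : TorOne L i) {a : R}
    (α : M →ₗ[R] L) (β : L →ₗ[R] M) (h : ∀ x, β (α x) = a • x) (z : M ⊗[R] K)
    (hz : LinearMap.lTensor M i z = 0) : a • z = 0 := by
  have h1 : LinearMap.lTensor L i (LinearMap.rTensor K α z) = 0 := by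
    rw [comm1, hz, map_zero]
  have h2 := hL _ h1
  have h3 : LinearMap.rTensor K β (LinearMap.rTensor K α z) = a • z := by
    rw [← rTensor_lsmul, ← LinearMap.comp_apply, ← LinearMap.rTensor_comp]
    congr 2
    ext x
    exact h x
  rw [← h3, h2, map_zero]

end

/-- the first syzygy of `N`, for the canonical free cover. -/
noncomputable def Syz (R : Type) (N : Type v) [CommRing R] [AddCommGroup N] [Module R N] :
    Submodule R (N →₀ R) :=
  LinearMap.ker (Finsupp.linearCombination R (id : N → N))

section Maps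

variable (R) (N : Type v) [AddCommGroup N] [Module R N]

/-- the inclusion of the syzygy. -/
noncomputable abbrev inc : Syz R N →ₗ[R] (N →₀ R) := (Syz R N).subtype

/-- the free cover. -/
noncomputable abbrev cov : (N →₀ R) →ₗ[R] N := Finsupp.linearCombination R (id : N → N)

theorem cov_surjective : Function.Surjective (cov R N) :=
  Finsupp.linearCombination_id_surjective R N

theorem inc_cov_exact : Function.Exact (inc R N) (cov R N) := by
  intro x
  constructor
  · intro hx
    exact ⟨⟨x, hx⟩, rfl⟩
  · rintro ⟨y, rfl⟩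
    exact y.2

end Maps

/-- `Tor_i(M, N) = 0` for `1 ≤ i ≤ k`. -/
def Acyc (M : Type*) [AddCommGroup M] [Module R M] :
    ℕ → ∀ (N : Type v) [AddCommGroup N] [Module R N], Prop
  | 0, _, _, _ => True
  | k + 1, N, _, _ => TorOne (R := R) M (K := Syz R N) (F := N →₀ R) (inc R N) ∧
      Acyc M k (Syz R N)

theorem Acyc.ext {f : M' →ₗ[R] M} {g : M →ₗ[R] M''} (hf : Function.Injective f)
    (hfg : Function.Exact f g) (hg : Function.Surjective g) (k : ℕ) :
    ∀ (N : Type v) [AddCommGroup N] [Module R N], Acyc (R := R) M' k N → Acyc (R := R) M'' k N →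
      Acyc (R := R) M k N := by
  induction k with
  | zero => intro N _ _ _ _; trivial
  | succ k ih =>
    intro N _ _ h' h''
    exact ⟨TorOne.ext hf hfg hg h'.1 h''.1, ih _ h'.2 h''.2⟩

/-- flat modules. -/
theorem Acyc.of_flat [Module.Flat R M] (k : ℕ) :
    ∀ (N : Type v) [AddCommGroup N] [Module R N], Acyc (R := R) M k N := by
  induction k with
  | zero => intro N _ _; trivial
  | succ k ih =>
    intro N _ _
    refine ⟨fun z hz => ?_, ih _⟩
    exact Module.Flat.lTensor_preserves_injective_linearMap (M := M) (inc R N)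
      (Submodule.injective_subtype _) (hz.trans (map_zero _).symm)

theorem Acyc.of_subsingleton [Subsingleton M] (k : ℕ) :
    ∀ (N : Type v) [AddCommGroup N] [Module R N], Acyc (R := R) M k N := by
  induction k with
  | zero => intro N _ _; trivial
  | succ k ih =>
    intro N _ _
    refine ⟨fun z hz => ?_, ih _⟩
    have : Module.Flat R M := inferInstance
    exact Module.Flat.lTensor_preserves_injective_linearMap (M := M) (inc R N)
      (Submodule.injective_subtype _) (hz.trans (map_zero _).symm)

/-- the step for the quotients `R/I_h`: `Q' = Q/cQ`. -/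
theorem Acyc.quot_step {Q Q' : Type*} [AddCommGroup Q] [Module R Q] [AddCommGroup Q']
    [Module R Q'] {c : R} (hc : Reg c Q) {t : Q →ₗ[R] Q'} (ht : Function.Surjective t)
    (hex : ∀ x, t x = 0 ↔ ∃ y, c • y = x) (k : ℕ) :
    ∀ (N : Type v) [AddCommGroup N] [Module R N], Reg c (Q ⊗[R] N) →
      (∀ k, Acyc (R := R) Q k N) → Acyc (R := R) Q' k N := by
  induction k with
  | zero => intro N _ _ _ _; trivial
  | succ k ih =>
    intro N _ _ hreg hA
    obtain ⟨h1, h2⟩ := TorOne.quot_step (R := R) (inc_cov_exact R N) (cov_surjective R N) hc ht hex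
      hreg (hA 1).1
    exact ⟨h1, ih _ h2 fun k => (hA (k + 1)).2⟩

end Vale.Agent.P217.H934
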