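import Vale.Agent.P217.H934.Strata
import Vale.Agent.P217.H934.Tor

/-!
# P217 (helper934): the exact functor theorem for equivariant modules, abstract form
-/

namespace Vale.Agent.P217.H934

open Topology EqModule TensorProduct

universe v

section Pi

variable {R : Type} [CommRing R]

theorem TorOne.pi {Q : Type*} [AddCommGroup Q] [Module R Q] {K F : Type*} [AddCommGroup K]
    [Module R K] [AddCommGroup F] [Module R F] {i : K →ₗ[R] F} (h : TorOne Q i) (r : ℕ) :
    TorOne (Fin r → Q) i := by
  classical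
  intro z hz
  have h1 : ∀ j : Fin r, LinearMap.rTensor K (LinearMap.proj j : (Fin r → Q) →ₗ[R] Q) z = 0 := by
    intro j
    apply h
    rw [comm1, hz, map_zero]
  have h2 : ∑ j : Fin r, (LinearMap.single R (fun _ : Fin r => Q) j).comp
      (LinearMap.proj j : (Fin r → Q) →ₗ[R] Q) = LinearMap.id := by
    ext j x k
    simp [LinearMap.sum_apply, Finset.sum_apply, Pi.single_apply]
  have h3 : LinearMap.rTensor K (LinearMap.id : (Fin r → Q) →ₗ[R] (Fin r → Q)) z = z := by
    rw [LinearMap.rTensor_id, LinearMap.id_apply]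
  have h4 : LinearMap.rTensor K (∑ j : Fin r, (LinearMap.single R (fun _ : Fin r => Q) j).comp
      (LinearMap.proj j : (Fin r → Q) →ₗ[R] Q)) = ∑ j : Fin r, LinearMap.rTensor K
        ((LinearMap.single R (fun _ : Fin r => Q) j).comp
          (LinearMap.proj j : (Fin r → Q) →ₗ[R] Q)) :=
    map_sum (LinearMap.rTensorHom K) _ _
  rw [← h3, ← h2, h4, LinearMap.sum_apply]
  refine Finset.sum_eq_zero fun j _ => ?_
  rw [LinearMap.rTensor_comp, LinearMap.comp_apply, h1, map_zero]

end Pi

variable {R : Type} [CommRing R] {𝔾 : Type*} [Group 𝔾] [TopologicalSpace 𝔾]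
  {J : Ideal R} {π : 𝔾 →* RingAut R} {n : ℕ} {I : ℕ → Ideal R}

/-- the ideals are generated by a sequence `c`. -/
structure IsGen (n : ℕ) (I : ℕ → Ideal R) (c : ℕ → R) : Prop where
  zero : I 0 = ⊥
  succ : ∀ h ≤ n, ext n I (h + 1) = I h ⊔ Ideal.span {c h}

section

variable {c : ℕ → R}

theorem IsGen.notMem (hg : IsGen n I c) (hC : IChain π n I) {h : ℕ} (hh : h ≤ n) : c h ∉ I h := by
  intro h1
  have h2 := hg.succ h hh
  have h3 : I h ⊔ Ideal.span {c h} = I h := by
    rw [sup_eq_left, Ideal.span_le, Set.singleton_subset_iff]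
    exact h1
  rw [h3, ext] at h2
  split_ifs at h2 with h4
  · exact (hC.lt _ _ (Nat.lt_succ_self h) h4).ne' h2
  · exact (hC.prime h hh).ne_top h2.symm

theorem IsGen.reg (hg : IsGen n I c) (hC : IChain π n I) {h : ℕ} (hh : h ≤ n) :
    Reg (c h) (R ⧸ I h) := by
  intro x hx
  obtain ⟨a, rfl⟩ := Ideal.Quotient.mk_surjective x
  have h1 : Ideal.Quotient.mk (I h) (c h * a) = 0 := hx
  rw [Ideal.Quotient.eq_zero_iff_mem] at h1 ⊢
  exact ((hC.prime h hh).mem_or_mem h1).resolve_left (hg.notMem hC hh)

/-- the quotients `R/I_h` are acyclic. -/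
theorem IsGen.acyc (hg : IsGen n I c) (hC : IChain π n I) (N : Type v) [AddCommGroup N]
    [Module R N] (hreg : ∀ h ≤ n, Reg (c h) ((R ⧸ I h) ⊗[R] N)) (h : ℕ) (hh : h ≤ n) :
    ∀ k, Acyc (R := R) (R ⧸ I h) k N := by
  induction h with
  | zero =>
    have h1 : Module.Flat R (R ⧸ I 0) := by
      have e : (R ⧸ I 0) ≃ₗ[R] R := Submodule.quotEquivOfEqBot (I 0) hg.zero
      exact Module.Flat.of_linearEquiv e
    intro k
    exact Acyc.of_flat k N
  | succ h ih =>
    have hh' : h ≤ n := by omega
    have hsucc : I (h + 1) = I h ⊔ Ideal.span {c h} := by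
      rw [← hg.succ h hh', ext, if_pos hh]
    have hle : I h ≤ I (h + 1) := (hC.lt _ _ (Nat.lt_succ_self h) hh).le
    intro k
    refine Acyc.quot_step (Q := R ⧸ I h) (Q' := R ⧸ I (h + 1)) (c := c h) (hg.reg hC hh')
      (t := Submodule.factor hle) (Submodule.factor_surjective hle) ?_ k N (hreg h hh') (ih hh')
    intro x
    obtain ⟨a, rfl⟩ := Submodule.mkQ_surjective (I h) x
    have h1 : Submodule.factor hle (Submodule.mkQ (I h) a) = 0 ↔ a ∈ I (h + 1) := by
      have : Submodule.factor hle (Submodule.mkQ (I h) a) = Submodule.mkQ (I (h + 1)) a := rfl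
      rw [this, Submodule.mkQ_apply]
      exact Submodule.Quotient.mk_eq_zero _
    rw [h1, hsucc, Submodule.mem_sup]
    constructor
    · rintro ⟨y, hy, z, hz, rfl⟩
      obtain ⟨w, rfl⟩ := Ideal.mem_span_singleton'.1 hz
      refine ⟨Submodule.mkQ (I h) w, ?_⟩
      rw [map_add, ← map_smul, smul_eq_mul, mul_comm]
      have : Submodule.mkQ (I h) y = 0 := (Submodule.Quotient.mk_eq_zero _).2 hy
      rw [this, zero_add]
    · rintro ⟨y, hy⟩
      obtain ⟨w, rfl⟩ := Submodule.mkQ_surjective (I h) y
      rw [← map_smul] at hy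
      have h2 : a - c h • w ∈ I h := by
        have := (Submodule.Quotient.eq (I h)).1 hy.symm
        exact this
      exact ⟨a - c h • w, h2, c h • w, Ideal.mem_span_singleton'.2 ⟨w, mul_comm _ _⟩, by ring⟩

end

theorem reg_of_tor {L Q : Type*} [AddCommGroup L] [Module R L] [AddCommGroup Q] [Module R Q]
    {c : R} (hc : Reg c L) {t : L →ₗ[R] Q} (ht : Function.Surjective t)
    (hex : ∀ x, t x = 0 ↔ ∃ y, c • y = x) (N : Type v) [AddCommGroup N] [Module R N]
    (hT : TorOne (R := R) Q (K := Syz R N) (F := N →₀ R) (inc R N)) : Reg c (L ⊗[R] N) :=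
  reg_of_torOne (inc_cov_exact R N) (cov_surjective R N) hc ht hex hT

/-- the local step: `L` is `c`-torsion-free, `L/cL` and `R/A` are acyclic, and `L` is locally free
over `R/A` where `c` is invertible. -/
theorem acyc_of_local {L Q : Type*} [AddCommGroup L] [Module R L] [AddCommGroup Q] [Module R Q]
    {c : R} (hc : Reg c L) {t : L →ₗ[R] Q} (ht : Function.Surjective t)
    (hex : ∀ x, t x = 0 ↔ ∃ y, c • y = x) {A : Ideal R} (hA : A ≤ Module.annihilator R L) {r : ℕ}
    (hr : c ∈ (basisIdeal A L r).radical) (k : ℕ) :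
    ∀ (N : Type v) [AddCommGroup N] [Module R N], (∀ k, Acyc (R := R) Q k N) →
      (∀ k, Acyc (R := R) (R ⧸ A) k N) → Acyc (R := R) L k N := by
  induction k with
  | zero => intro N _ _ _ _; trivial
  | succ k ih =>
    intro N _ _ hQ hRA
    refine ⟨?_, ih (Syz R N) (fun k => (hQ (k + 1)).2) (fun k => (hRA (k + 1)).2)⟩
    refine TorOne.of_factor (c := c) (Z := basisIdeal A L r) ?_ hr ?_
    · exact reg_of_tor hc ht hex (Syz R N) (hQ 2).2.1
    · intro z hz a ha
      induction ha using Submodule.span_induction with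
      | mem a ha =>
        rcases ha with ⟨m, hm⟩ | ha
        · obtain ⟨α, β, h⟩ := hm.exists_maps hA
          exact TorOne.factor ((hRA 1).1.pi r) α β h z hz
        · exact smul_tensor_zero (M := L) (N := Syz R N) a (Module.mem_annihilator.1 (hA ha)) z
      | zero => rw [zero_smul]
      | add a b _ _ ha hb => rw [add_smul, ha, hb, add_zero]
      | smul a b _ hb => rw [smul_eq_mul, mul_smul, hb, smul_zero]

theorem pow_inv_mem {B : Ideal R} (hB : ∀ (g : 𝔾), ∀ r ∈ B, π g r ∈ B) (j : ℕ) (g : 𝔾) {r : R}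
    (hr : r ∈ B ^ j) : π g r ∈ B ^ j := by
  have h1 : (B ^ j).map (π g : R →+* R) ≤ B ^ j := by
    rw [Ideal.map_pow]
    exact Ideal.pow_right_mono (Ideal.map_le_iff_le_comap.2 (hB g)) j
  exact h1 (Ideal.mem_map_of_mem _ hr)

theorem exists_torsion [IsNoetherianRing R] (M : EqModule J π) {B : Ideal R}
    (hB : ∀ (g : 𝔾), ∀ r ∈ B, π g r ∈ B) :
    ∃ (S : Submodule R M.carrier) (_ : ∀ g, ∀ m ∈ S, M.ρ g m ∈ S) (j : ℕ),
      (∀ x ∈ S, ∀ b ∈ B ^ j, b • x = 0) ∧ ∀ x, (∀ b ∈ B ^ (j + 1), b • x = 0) → x ∈ S := by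
  let T : ℕ → Submodule R M.carrier := fun j =>
    { carrier := {x | ∀ b ∈ B ^ j, b • x = 0}
      add_mem' := fun {x y} hx hy b hb => by rw [smul_add, hx b hb, hy b hb, add_zero]
      zero_mem' := fun b _ => smul_zero b
      smul_mem' := fun a x hx b hb => by rw [smul_comm, hx b hb, smul_zero] }
  have hT : Monotone T := by
    intro i j hij x hx b hb
    exact hx b (Ideal.pow_le_pow_right hij hb)
  obtain ⟨j, hj⟩ := monotone_stabilizes_iff_noetherian.2
    (inferInstance : IsNoetherian R M.carrier) ⟨T, hT⟩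
  refine ⟨T j, ?_, j, fun x hx b hb => hx b hb, fun x hx => ?_⟩
  · intro g m hm b hb
    have h1 := hm _ (pow_inv_mem hB j g⁻¹ hb)
    have h2 := M.semilinear g (π g⁻¹ b) m
    rw [h1, map_zero, π_apply_inv] at h2
    exact h2.symm
  · have h1 : T j = T (j + 1) := hj (j + 1) (Nat.le_succ j)
    rw [h1]
    exact hx

theorem IChain.ext_inv (hC : IChain π n I) (h : ℕ) : ∀ (g : 𝔾), ∀ r ∈ ext n I h,
    π g r ∈ ext n I h := by
  intro g r hr
  rw [ext] at hr ⊢
  split_ifs at hr ⊢ with h1
  · exact hC.inv h h1 g r hr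
  · trivial

/-- every equivariant module is acyclic, if `c` is a regular sequence on `N`. -/
theorem IsGen.acyc_main [IsNoetherianRing R] {c : ℕ → R} (hg : IsGen n I c) (hC : IChain π n I)
    (N : Type v) [AddCommGroup N] [Module R N]
    (hreg : ∀ h ≤ n, Reg (c h) ((R ⧸ I h) ⊗[R] N)) (d : ℕ) :
    ∀ h, h + d = n + 1 → ∀ M : EqModule J π, ext n I h ≤ Module.annihilator R M.carrier →
      ∀ k, Acyc (R := R) M.carrier k N := by
  induction d with
  | zero =>
    intro h hh M hM k
    rw [ext, if_neg (by omega), top_le_iff] at hM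
    have := Module.annihilator_eq_top_iff.1 hM
    exact Acyc.of_subsingleton k N
  | succ d ih =>
    intro h hh M hM
    have hhn : h ≤ n := by omega
    have hIH := ih (h + 1) (by omega)
    have hB := hC.ext_inv (h + 1)
    have hBeq := hg.succ h hhn
    rw [ext, if_pos hhn] at hM
    -- modules killed by a power of `B`
    have hP : ∀ j, ∀ M : EqModule J π, ext n I (h + 1) ^ j ≤ Module.annihilator R M.carrier →
        ∀ k, Acyc (R := R) M.carrier k N := by
      intro j
      induction j with
      | zero =>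
        intro M hM k
        rw [pow_zero, Ideal.one_eq_top, top_le_iff] at hM
        have := Module.annihilator_eq_top_iff.1 hM
        exact Acyc.of_subsingleton k N
      | succ j ihj =>
        intro M hM k
        have hS := smul_top_inv hB M
        refine Acyc.ext (M' := (M.sub (ext n I (h + 1) • ⊤) hS).carrier)
          (M'' := (M.quot (ext n I (h + 1) • ⊤) hS).carrier)
          (f := (ext n I (h + 1) • ⊤ : Submodule R M.carrier).subtype)
          (g := (ext n I (h + 1) • ⊤ : Submodule R M.carrier).mkQ)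
          (Submodule.injective_subtype _) (LinearMap.exact_subtype_mkQ _)
          (Submodule.mkQ_surjective _) k N (ihj _ (fun a ha => ?_) k)
          (hIH _ (fun a ha => ?_) k)
        · rw [mem_ann_sub]
          intro m hm
          refine Submodule.smul_induction_on hm ?_ ?_
          · intro r hr x _
            rw [← mul_smul]
            refine Module.mem_annihilator.1 (hM ?_) x
            rw [pow_succ]
            exact Ideal.mul_mem_mul ha hr
          · intro x y hx hy
            rw [smul_add, hx, hy, add_zero]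
        · rw [mem_ann_quot]
          intro m
          exact Submodule.smul_mem_smul ha trivial
    obtain ⟨S, hS, j, h1, h2⟩ := exists_torsion M hB
    have hann : ∀ a ∈ I h, ∀ x : M.carrier, a • x = 0 := fun a ha x =>
      Module.mem_annihilator.1 (hM ha) x
    have hL : ∀ k, Acyc (R := R) (M.quot S hS).carrier k N := by
      have hML : I h ≤ Module.annihilator R (M.quot S hS).carrier := by
        intro a ha
        rw [mem_ann_quot]
        intro m
        rw [hann a ha]
        exact S.zero_mem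
      have hS2 := smul_top_inv hB (M.quot S hS)
      obtain ⟨r, hr⟩ := hC.basisIdeal hhn (M.quot S hS) hML
      have hcB : c h ∈ ext n I (h + 1) := by
        rw [hBeq]
        exact Ideal.mem_sup_right (Ideal.mem_span_singleton_self _)
      intro k
      refine acyc_of_local (c := c h) (Q := ((M.quot S hS).quot _ hS2).carrier)
        (t := (ext n I (h + 1) • ⊤ : Submodule R (M.quot S hS).carrier).mkQ) ?_
        (Submodule.mkQ_surjective _) ?_ hML (hr hcB) k N (hIH _ fun a ha => ?_)
        (hg.acyc hC N hreg h hhn)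
      · intro x hx
        obtain ⟨y, rfl⟩ := S.mkQ_surjective x
        have h3 : c h • y ∈ S := (Submodule.Quotient.mk_eq_zero S).1 hx
        refine (Submodule.Quotient.mk_eq_zero S).2 (h2 y ?_)
        have h4 : ext n I (h + 1) ^ (j + 1) ≤ LinearMap.ker (LinearMap.toSpanSingleton R _ y) := by
          rw [pow_succ, Ideal.mul_le]
          intro b hb b' hb'
          rw [LinearMap.mem_ker, LinearMap.toSpanSingleton_apply]
          rw [hBeq, Submodule.mem_sup] at hb'
          obtain ⟨a, ha, w, hw, rfl⟩ := hb'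
          obtain ⟨e, rfl⟩ := Ideal.mem_span_singleton'.1 hw
          rw [mul_smul, add_smul, hann a ha, zero_add, mul_smul, smul_comm b e, h1 _ h3 b hb,
            smul_zero]
        exact fun b hb => h4 hb
      · intro x
        refine (Submodule.Quotient.mk_eq_zero
          (ext n I (h + 1) • ⊤ : Submodule R (M.quot S hS).carrier)).trans ?_
        constructor
        · intro hx
          refine Submodule.smul_induction_on hx ?_ ?_
          · intro b hb y _
            rw [hBeq, Submodule.mem_sup] at hb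
            obtain ⟨a, ha, w, hw, rfl⟩ := hb
            obtain ⟨e, rfl⟩ := Ideal.mem_span_singleton'.1 hw
            refine ⟨e • y, ?_⟩
            rw [add_smul, Module.mem_annihilator.1 (hML ha) y, zero_add, mul_smul, smul_comm]
          · rintro x y ⟨x', rfl⟩ ⟨y', rfl⟩
            exact ⟨x' + y', smul_add _ _ _⟩
        · rintro ⟨y, rfl⟩
          exact Submodule.smul_mem_smul hcB trivial
      · rw [mem_ann_quot]
        intro m
        exact Submodule.smul_mem_smul ha trivial
    intro k
    refine Acyc.ext (M' := (M.sub S hS).carrier) (M'' := (M.quot S hS).carrier)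
      (f := S.subtype) (g := S.mkQ) (Submodule.injective_subtype _)
      (LinearMap.exact_subtype_mkQ _) (Submodule.mkQ_surjective _) k N
      (hP j _ (fun a ha => ?_) k) (hL k)
    rw [mem_ann_sub]
    exact fun m hm => h1 m hm a ha

/-- exactness, if `c` is regular on `N`. -/
theorem IsGen.exact_of_reg [IsNoetherianRing R] {c : ℕ → R} (hg : IsGen n I c) (hC : IChain π n I)
    (N : Type v) [AddCommGroup N] [Module R N]
    (hreg : ∀ h ≤ n, Reg (c h) ((R ⧸ I h) ⊗[R] N)) (M' M : EqModule J π)
    (f : M'.carrier →ₗ[R] M.carrier) (hf : IsEquivariant f) (hinj : Function.Injective f) :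
    Function.Injective (LinearMap.rTensor N f) := by
  have hS : ∀ g, ∀ m ∈ LinearMap.range f, M.ρ g m ∈ LinearMap.range f := by
    rintro g _ ⟨y, rfl⟩
    exact ⟨M'.ρ g y, hf g y⟩
  rw [injective_iff_map_eq_zero]
  refine rTensor_eq_zero_of_torOne (R := R) (K := Syz R N) (F := N →₀ R) (i := inc R N)
    (q := cov R N) (inc_cov_exact R N) (cov_surjective R N)
    (g := (LinearMap.range f).mkQ) hinj ?_ (Submodule.mkQ_surjective _) ?_
  · exact LinearMap.exact_map_mkQ_range f
  · have h1 := hg.acyc_main hC N hreg (n + 1) 0 (by omega) (M.quot (LinearMap.range f) hS) (by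
      rw [ext, if_pos (Nat.zero_le n), hg.zero]
      exact bot_le) 1
    exact h1.1

/-- regularity, if tensoring with `N` is exact. -/
theorem IsGen.reg_of_exact [IsNoetherianRing R] {c : ℕ → R} (hg : IsGen n I c)
    (hC : IChain π n I) (hc : ∀ (r : R) (k : ℕ), ∀ᶠ g in 𝓝 (1 : 𝔾), π g r - r ∈ J ^ k)
    (N : Type v) [AddCommGroup N] [Module R N]
    (hex : ∀ (M' M : EqModule J π) (f : M'.carrier →ₗ[R] M.carrier), IsEquivariant f →
      Function.Injective f → Function.Injective (LinearMap.rTensor N f)) (h : ℕ) (hh : h ≤ n) :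
    Reg (c h) ((R ⧸ I h) ⊗[R] N) := by
  have hBeq := hg.succ h hh
  have hcB : c h ∈ ext n I (h + 1) := by
    rw [hBeq]
    exact Ideal.mem_sup_right (Ideal.mem_span_singleton_self _)
  obtain ⟨Q, hQ⟩ : ∃ Q : EqModule J π, Nonempty ((R ⧸ I h) ≃ₗ[R] Q.carrier) :=
    ⟨(unit π hc).quot (I h) (hC.inv h hh), ⟨LinearEquiv.refl R (R ⧸ I h)⟩⟩
  obtain ⟨e₀⟩ := hQ
  have hregQ : Reg (c h) Q.carrier := by
    intro x hx
    have h1 : c h • e₀.symm x = 0 := by rw [← map_smul, hx, map_zero]
    have h2 := hg.reg hC hh _ h1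
    rwa [LinearEquiv.map_eq_zero_iff] at h2
  have hann : ∀ a ∈ I h, ∀ x : Q.carrier, a • x = 0 := by
    intro a ha x
    obtain ⟨y, rfl⟩ := e₀.surjective x
    obtain ⟨b, rfl⟩ := Ideal.Quotient.mk_surjective y
    rw [← map_smul]
    have h1 : a • (Ideal.Quotient.mk (I h) b) = 0 := by
      have : a • (Ideal.Quotient.mk (I h) b) = Ideal.Quotient.mk (I h) (a * b) := rfl
      rw [this, Ideal.Quotient.eq_zero_iff_mem]
      exact (I h).mul_mem_right b ha
    rw [h1, map_zero]
  have hS := smul_top_inv (hC.ext_inv (h + 1)) Q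
  have h1 := hex (Q.sub _ hS) Q
    (ext n I (h + 1) • ⊤ : Submodule R Q.carrier).subtype (fun _ _ => rfl)
    (Submodule.injective_subtype _)
  let e : Q.carrier →ₗ[R] (ext n I (h + 1) • ⊤ : Submodule R Q.carrier) :=
    (LinearMap.lsmul R Q.carrier (c h)).codRestrict _ fun x => Submodule.smul_mem_smul hcB trivial
  have he1 : Function.Injective e := by
    rw [injective_iff_map_eq_zero]
    intro x hx
    exact hregQ x (congrArg Subtype.val hx)
  have he2 : Function.Surjective e := by
    rintro ⟨x, hx⟩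
    have h2 : ∃ y, c h • y = x := by
      refine Submodule.smul_induction_on hx ?_ ?_
      · intro b hb y _
        rw [hBeq, Submodule.mem_sup] at hb
        obtain ⟨a, ha, w, hw, rfl⟩ := hb
        obtain ⟨t, rfl⟩ := Ideal.mem_span_singleton'.1 hw
        refine ⟨t • y, ?_⟩
        rw [add_smul, hann a ha, zero_add, mul_smul, smul_comm]
      · rintro x y ⟨x', rfl⟩ ⟨y', rfl⟩
        exact ⟨x' + y', smul_add _ _ _⟩
    obtain ⟨y, hy⟩ := h2
    exact ⟨y, Subtype.ext hy⟩
  have key : Reg (c h) (Q.carrier ⊗[R] N) := by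
    intro z hz
    have h2 : LinearMap.rTensor N (ext n I (h + 1) • ⊤ : Submodule R Q.carrier).subtype
        (LinearMap.rTensor N e z) = 0 := by
      rw [← LinearMap.comp_apply, ← LinearMap.rTensor_comp]
      exact (rTensor_lsmul (c h) z).trans hz
    have h3 : LinearMap.rTensor N e z = 0 := h1 (h2.trans (map_zero _).symm)
    have h4 := (LinearEquiv.rTensor N (LinearEquiv.ofBijective e ⟨he1, he2⟩)).injective
    exact h4 (h3.trans (map_zero _).symm)
  intro z hz
  have h5 := key (LinearEquiv.rTensor N e₀ z) (by rw [← map_smul, hz, map_zero])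
  rwa [LinearEquiv.map_eq_zero_iff] at h5

end Vale.Agent.P217.H934
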