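import Vale.Agent.P217.H934.Supp

/-!
# P217 (helper934): the classification for unbundled equivariant modules
-/

namespace Vale.Agent.P217.H934

open Topology TensorProduct EqModule

variable {R : Type} [CommRing R] {𝔾 : Type*} [Group 𝔾] [TopologicalSpace 𝔾]
  {J : Ideal R} {π : 𝔾 →* RingAut R}

/-- bundling. -/
def bundle {M : Type} [AddCommGroup M] [Module R M] {ρ : 𝔾 → M → M} (h : IsEqModule J π M ρ) :
    EqModule J π where
  carrier := M
  finite := h.finite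
  ρ g :=
    { toFun := ρ g
      invFun := ρ g⁻¹
      left_inv := fun m => by rw [← h.mul, inv_mul_cancel, h.one]
      right_inv := fun m => by rw [← h.mul, mul_inv_cancel, h.one]
      map_add' := h.add g }
  ρ_one := h.one
  ρ_mul := h.mul
  semilinear := h.smul
  continuous := h.continuous

theorem isEqModule (M : EqModule J π) : IsEqModule J π M.carrier (fun g m => M.ρ g m) where
  finite := M.finite
  one := M.ρ_one
  mul := M.ρ_mul
  add g m m' := map_add (M.ρ g) m m'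
  smul := M.semilinear
  continuous := M.continuous

/-- the bundled objects of a class. -/
def toSet (J : Ideal R) (π : 𝔾 →* RingAut R) (𝒞 : ModuleClass R 𝔾) : Set (EqModule J π) :=
  {M | 𝒞 M.carrier (fun g m => M.ρ g m)}

theorem serre_iff (𝒞 : ModuleClass R 𝔾) : IsSerreIdeal J π 𝒞 ↔ IsSerreB (toSet J π 𝒞) := by
  constructor
  · intro h
    refine ⟨fun M hM => h.zero _ _ (isEqModule M) hM, ?_, ?_⟩
    · intro M' M M'' f g h1 h2 h3 h4 h5
      exact h.exact _ _ _ _ _ _ f g (isEqModule M') (isEqModule M) (isEqModule M'') h1 h2 h3 h4 h5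
    · rintro M N T ⟨b, hb, hb2⟩ hM
      exact h.tensor _ _ _ _ _ _ b (isEqModule M) (isEqModule N) (isEqModule T) hb
        (fun a m n => (hb2 a m n).symm) hM
  · intro h
    refine ⟨?_, ?_, ?_⟩
    · intro M _ _ ρ hρ hM
      exact h.zero (bundle hρ) hM
    · intro M' M M'' _ _ _ _ _ _ ρ' ρ ρ'' f g h1 h2 h3 h4 h5 h6 h7 h8
      exact h.exact (bundle h1) (bundle h2) (bundle h3) f g h4 h5 h6 h7 h8
    · intro M N T _ _ _ _ _ _ ρ σ τ b h1 h2 h3 h4 h5 h6
      exact h.tensor (bundle h1) (bundle h2) (bundle h3) ⟨b, h4, fun a m n => (h5 a m n).symm⟩ h6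

theorem torsion_iff [IsNoetherianRing R] (𝒞 : ModuleClass R 𝔾) :
    IsTorsionIdeal J π 𝒞 ↔ IsTorsionB (toSet J π 𝒞) := by
  constructor
  · intro h
    refine ⟨fun M hM => h.zero _ _ (isEqModule M) hM, ?_, ?_, ?_⟩
    · intro M M'' f hf hs hM
      have hS : ∀ g, ∀ m ∈ LinearMap.ker f, M.ρ g m ∈ LinearMap.ker f := by
        intro g m hm
        rw [LinearMap.mem_ker] at hm ⊢
        rw [hf, hm, map_zero]
      refine (h.exact _ _ _ _ _ _ (LinearMap.ker f).subtype f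
        (isEqModule (M.sub (LinearMap.ker f) hS)) (isEqModule M) (isEqModule M'')
        (fun _ _ => rfl) hf (LinearMap.ker f).injective_subtype ?_ hs).1 hM
      intro m
      constructor
      · intro hm
        exact ⟨⟨m, hm⟩, rfl⟩
      · rintro ⟨m, rfl⟩
        exact m.2
    · intro M' M M'' f g h1 h2 h3 h4 h5
      exact (h.exact _ _ _ _ _ _ f g (isEqModule M') (isEqModule M) (isEqModule M'')
        h1 h2 h3 h4 h5).2
    · rintro M N T ⟨b, hb, hb2⟩ hM
      exact h.tensor _ _ _ _ _ _ b (isEqModule M) (isEqModule N) (isEqModule T) hb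
        (fun a m n => (hb2 a m n).symm) hM
  · intro h
    refine ⟨?_, ?_, ?_⟩
    · intro M _ _ ρ hρ hM
      exact h.zero (bundle hρ) hM
    · intro M' M M'' _ _ _ _ _ _ ρ' ρ ρ'' f g h1 h2 h3 h4 h5 h6 h7 h8
      exact ⟨h.quotient (bundle h2) (bundle h3) g h5 h8,
        h.extension (bundle h1) (bundle h2) (bundle h3) f g h4 h5 h6 h7 h8⟩
    · intro M N T _ _ _ _ _ _ ρ σ τ b h1 h2 h3 h4 h5 h6
      exact h.tensor (bundle h1) (bundle h2) (bundle h3) ⟨b, h4, fun a m n => (h5 a m n).symm⟩ h6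

variable [IsNoetherianRing R] [IsTopologicalGroup 𝔾] {n : ℕ} {I : ℕ → Ideal R}

theorem toSet_iff (𝒞 : ModuleClass R 𝔾) (A : Ideal R) :
    (∀ M : EqModule J π, M ∈ toSet J π 𝒞 ↔ ∃ k : ℕ, A ^ k ≤ Module.annihilator R M.carrier) ↔
      ∀ (M : Type) [AddCommGroup M] [Module R M] (ρ : 𝔾 → M → M), IsEqModule J π M ρ →
        (𝒞 M ρ ↔ ∃ k : ℕ, A ^ k ≤ Module.annihilator R M) := by
  constructor
  · intro h M _ _ ρ hρ
    exact h (bundle hρ)
  · intro h M
    exact h M.carrier _ (isEqModule M)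

theorem IChain.serre (hC : IChain π n I) (hJ : ∀ (g : 𝔾), ∀ r ∈ J, π g r ∈ J)
    (hc : ∀ (r : R) (k : ℕ), ∀ᶠ g in 𝓝 (1 : 𝔾), π g r - r ∈ J ^ k) (𝒞 : ModuleClass R 𝔾) :
    IsSerreIdeal J π 𝒞 ↔ ∃ h ≤ n + 1, ∀ (M : Type) [AddCommGroup M] [Module R M]
      (ρ : 𝔾 → M → M), IsEqModule J π M ρ →
        (𝒞 M ρ ↔ ∃ k : ℕ, ext n I h ^ k ≤ Module.annihilator R M) := by
  rw [serre_iff, hC.classification_serre hJ hc]
  simp only [toSet_iff]

theorem IChain.torsion (hC : IChain π n I) (hJ : ∀ (g : 𝔾), ∀ r ∈ J, π g r ∈ J)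
    (hc : ∀ (r : R) (k : ℕ), ∀ᶠ g in 𝓝 (1 : 𝔾), π g r - r ∈ J ^ k) (𝒞 : ModuleClass R 𝔾) :
    IsTorsionIdeal J π 𝒞 ↔ ∃ h ≤ n + 1, ∀ (M : Type) [AddCommGroup M] [Module R M]
      (ρ : 𝔾 → M → M), IsEqModule J π M ρ →
        (𝒞 M ρ ↔ ∃ k : ℕ, ext n I h ^ k ≤ Module.annihilator R M) := by
  rw [torsion_iff, hC.classification_torsion hJ hc]
  simp only [toSet_iff]

end Vale.Agent.P217.H934
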