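import Vale.Agent.P217.H260.Main
import Vale.Agent.P217.H934.Unb

/-!
# P217 (helper934): the Serre tensor ideals of finitely generated Morava modules
-/

namespace Vale.Agent.P217.H934

open MvPowerSeries Vale.Agent.P217 Topology EqModule TensorProduct

variable {p n : ℕ} [Fact p.Prime] {Γ : FormalGroup (ZMod p)} {F : FormalGroup (P217.E0 p n)}

theorem natCast_ne_zero_E0 : (p : P217.E0 p n) ≠ 0 := by
  intro h
  have h1 : (C ((p : ℕ) : WittVector p (GaloisField p n)) : P217.E0 p n) = C 0 := by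
    rw [map_natCast, map_zero]
    exact h
  exact WittVector.p_nonzero p _ (C_injective h1)

theorem heightIdeal_lt_succ {h : ℕ} (hh : h + 1 ≤ n) :
    P217.heightIdeal p n h < P217.heightIdeal p n (h + 1) := by
  refine lt_of_le_of_ne (H260.heightIdeal_mono (Nat.le_succ h)) ?_
  rcases Nat.eq_zero_or_pos h with rfl | h0
  · intro h1
    have h2 : (p : P217.E0 p n) ∈ P217.heightIdeal p n (0 + 1) := by
      rw [P217.heightIdeal, if_neg (by omega)]
      exact Ideal.subset_span (Or.inl rfl)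
    rw [← h1, P217.heightIdeal, if_pos rfl] at h2
    exact natCast_ne_zero_E0 h2
  · intro h1
    have h2 : (X ⟨h - 1, by omega⟩ : P217.E0 p n) ∈ P217.heightIdeal p n (h + 1) := by
      rw [P217.heightIdeal, if_neg (by omega)]
      exact Ideal.subset_span (Or.inr ⟨_, by show h - 1 + 1 < h + 1; omega, rfl⟩)
    rw [← h1, ← ker_piH h h0 (by omega), RingHom.mem_ker] at h2
    have h3 := piH_X_emb (p := p) h h0 (by omega : h ≤ n) ⟨0, by omega⟩
    have h4 : embH n h h0 (by omega : h ≤ n) ⟨0, by omega⟩ = (⟨h - 1, by omega⟩ : Fin (n - 1)) :=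
      Fin.ext (by show 0 + (h - 1) = h - 1; omega)
    rw [h4, h2] at h3
    have h5 := congrArg (coeff (Finsupp.single ⟨0, by omega⟩ 1)) h3
    rw [coeff_index_single_self_X, map_zero] at h5
    exact zero_ne_one h5

theorem heightIdeal_lt {h h' : ℕ} (hlt : h < h') (hh' : h' ≤ n) :
    LT.heightIdeal p n h < LT.heightIdeal p n h' :=
  (heightIdeal_lt_succ (p := p) (n := n) (h := h) (by omega)).trans_le
    (H260.heightIdeal_mono hlt)

variable {𝔾 : Type*} [Group 𝔾]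

/-- invariance under the image of `π`. -/
theorem invariantUnder_range {π : 𝔾 →* RingAut (LT.E0 p n)} {A : Ideal (LT.E0 p n)} :
    LT.InvariantUnder π.range A ↔ ∀ g, ∀ r ∈ A, π g r ∈ A := by
  constructor
  · intro h g r hr
    rw [← h (π g) ⟨g, rfl⟩]
    exact Ideal.mem_map_of_mem _ hr
  · rintro h _ ⟨g, rfl⟩
    refine le_antisymm (Ideal.map_le_iff_le_comap.2 fun r hr => h g r hr) ?_
    intro r hr
    have h1 : π g (π g⁻¹ r) = r := π_apply_inv π g r
    rw [← h1]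
    exact Ideal.mem_map_of_mem _ (h g⁻¹ r hr)

theorem ichain (hn : 1 ≤ n) (hΓ : LT.IsHonda p n Γ) (hF : LT.IsUniversal p n Γ F)
    (hH : LT.HeightAdapted p n F) (π : 𝔾 →* RingAut (LT.E0 p n))
    (hU : π.range ≤ LT.actionGroup p n Γ F)
    (hfin : π.range.relIndex (LT.actionGroup p n Γ F) ≠ 0) :
    IChain π n (LT.heightIdeal p n) := by
  have h := (H260.main_subgroup.{0} hn hΓ hF hH π.range hU hfin).1
  refine ⟨fun A h1 h2 => ((h A).2).1 ⟨h1, invariantUnder_range.2 h2⟩, fun k hk => ?_,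
    fun k hk => ?_, fun k k' hlt hk' => heightIdeal_lt hlt hk'⟩
  · exact (((h _).1).2 ⟨k, hk, rfl⟩).1
  · exact invariantUnder_range.1 (((h _).1).2 ⟨k, hk, rfl⟩).2

theorem main (hn : 1 ≤ n) (hΓ : LT.IsHonda p n Γ) (hF : LT.IsUniversal p n Γ F)
    (hH : LT.HeightAdapted p n F) [TopologicalSpace 𝔾] [IsTopologicalGroup 𝔾]
    (π : 𝔾 →* RingAut (LT.E0 p n)) (hπ : ActsThrough p n Γ F π) :
    (∀ J : Ideal (LT.E0 p n),
      ((J.IsPrime ∧ LT.InvariantUnder π.range J) ↔ ∃ h ≤ n, J = LT.heightIdeal p n h) ∧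
      ((J.IsRadical ∧ LT.InvariantUnder π.range J) ↔
        (J = ⊤ ∨ ∃ h ≤ n, J = LT.heightIdeal p n h))) ∧
    (∀ 𝒞 : ModuleClass (LT.E0 p n) 𝔾,
      (IsSerreIdeal (LT.heightIdeal p n n) π 𝒞 ↔ ∃ h ≤ n + 1, IsHeightClass p n π h 𝒞) ∧
      (IsTorsionIdeal (LT.heightIdeal p n n) π 𝒞 ↔ ∃ h ≤ n + 1, IsHeightClass p n π h 𝒞)) ∧
    (∀ h ≤ n, ∃ (M : Type) (_ : AddCommGroup M) (_ : Module (LT.E0 p n) M) (ρ : 𝔾 → M → M),
      IsMoravaModule p n π M ρ ∧ HeightGE p n h M ∧ ¬ HeightGE p n (h + 1) M) ∧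
    ∀ (M N : Type) [AddCommGroup M] [Module (LT.E0 p n) M] [AddCommGroup N]
      [Module (LT.E0 p n) N] (ρ : 𝔾 → M → M) (σ : 𝔾 → N → N),
      IsMoravaModule p n π M ρ → IsMoravaModule p n π N σ →
      (∀ h, HeightGE p n h (M ⊗[LT.E0 p n] N) ↔ HeightGE p n h M ∨ HeightGE p n h N) ∧
      ((∀ 𝒞 : ModuleClass (LT.E0 p n) 𝔾, IsSerreIdeal (LT.heightIdeal p n n) π 𝒞 →
        𝒞 M ρ → 𝒞 N σ) ↔
        Module.annihilator (LT.E0 p n) M ≤ (Module.annihilator (LT.E0 p n) N).radical) := by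
  obtain ⟨hU, hfin, hc⟩ := hπ
  have hC := ichain hn hΓ hF hH π hU hfin
  have hJ : ∀ (g : 𝔾), ∀ r ∈ LT.heightIdeal p n n, π g r ∈ LT.heightIdeal p n n :=
    hC.inv n le_rfl
  have hnoeth : IsNoetherianRing (LT.E0 p n) := inferInstance
  refine ⟨(H260.main_subgroup.{0} hn hΓ hF hH π.range hU hfin).1,
    fun 𝒞 => ⟨hC.serre hJ hc 𝒞, hC.torsion hJ hc 𝒞⟩, fun h hh => ?_, ?_⟩
  · obtain ⟨-, M, h3, h4⟩ := hC.strict (J := LT.heightIdeal p n n) hc h hh
    exact ⟨M.carrier, _, _, _, isEqModule M, h3, h4⟩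
  · intro M N _ _ _ _ ρ σ hρ hσ
    refine ⟨fun h => ?_, ?_⟩
    · exact hC.prime_class (isTensor_tensor (bundle hρ) (bundle hσ)) h
    · have h1 := hC.generated hJ hc (bundle hρ) (bundle hσ)
      refine Iff.trans ⟨?_, ?_⟩ h1
      · intro h 𝒟 h𝒟 hM
        -- the unbundled class of a bundled class
        obtain ⟨d, hd, h2⟩ := (hC.classification_torsion hJ hc 𝒟).1 h𝒟
        have h3 := h (fun M _ _ _ => ∃ k : ℕ, ext n (LT.heightIdeal p n) d ^ k ≤
          Module.annihilator (LT.E0 p n) M) ((hC.serre hJ hc _).2 ⟨d, hd, fun _ _ _ _ _ => Iff.rfl⟩)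
          ((h2 (bundle hρ)).1 hM)
        exact (h2 (bundle hσ)).2 h3
      · intro h 𝒞 h𝒞 hM
        exact h (toSet _ π 𝒞) ((serre_iff 𝒞).1 h𝒞).torsion hM

end Vale.Agent.P217.H934
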