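import Vale.Agent.P217.H934.Main
import Vale.Agent.P217.H934.Landw
import Vale.Agent.P217.H934.Defs2

/-!
# P217 (helper934): vector bundles on the strata and the exact functor theorem
-/

namespace Vale.Agent.P217.H934

open MvPowerSeries Vale.Agent.P217 Topology EqModule TensorProduct

variable {p n : ℕ} [Fact p.Prime] {Γ : FormalGroup (ZMod p)} {F : FormalGroup (P217.E0 p n)}

theorem isGen (hn : 1 ≤ n) : IsGen n (LT.heightIdeal p n) (coord p n) where
  zero := by rw [LT.heightIdeal, if_pos rfl]
  succ := by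
    intro h hh
    rw [ext]
    rcases Nat.eq_zero_or_pos h with rfl | h0
    · rw [if_pos hn, coord, if_pos rfl, LT.heightIdeal, LT.heightIdeal, if_neg (by omega),
        if_pos rfl, bot_sup_eq]
      congr 1
      ext x
      constructor
      · rintro (hx | ⟨i, hi, -⟩)
        · exact hx
        · omega
      · exact fun hx => Or.inl hx
    · rcases hh.lt_or_eq with h1 | rfl
      · rw [if_pos (by omega), coord, if_neg (by omega), dif_pos (by omega), LT.heightIdeal,
          LT.heightIdeal, if_neg (by omega), if_neg (by omega), ← Ideal.span_union]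
        congr 1
        ext x
        constructor
        · rintro (hx | ⟨i, hi, rfl⟩)
          · exact Or.inl (Or.inl hx)
          · rcases Nat.lt_or_ge ((i : ℕ) + 1) h with h2 | h2
            · exact Or.inl (Or.inr ⟨i, h2, rfl⟩)
            · right
              rw [Set.mem_singleton_iff]
              congr 1
              exact Fin.ext (by show (i : ℕ) = h - 1; omega)
        · rintro ((hx | ⟨i, hi, rfl⟩) | hx)
          · exact Or.inl hx
          · exact Or.inr ⟨i, by omega, rfl⟩
          · rw [Set.mem_singleton_iff] at hx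
            exact Or.inr ⟨_, by show h - 1 + 1 < h + 1; omega, hx⟩
      · rw [if_neg (by omega), coord, if_neg (by omega), dif_neg (by omega),
          Ideal.span_singleton_one, sup_top_eq]

variable {𝔾 : Type*} [Group 𝔾] [TopologicalSpace 𝔾] [IsTopologicalGroup 𝔾]

theorem main_bundle (hn : 1 ≤ n) (hΓ : LT.IsHonda p n Γ) (hF : LT.IsUniversal p n Γ F)
    (hH : LT.HeightAdapted p n F)
    (π : 𝔾 →* RingAut (LT.E0 p n)) (hπ : ActsThrough p n Γ F π) (h : ℕ) (hh : h ≤ n)
    (M : Type) [AddCommGroup M] [Module (LT.E0 p n) M] (ρ : 𝔾 → M → M)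
    (hρ : IsMoravaModule p n π M ρ)
    (hM : LT.heightIdeal p n h ≤ Module.annihilator (LT.E0 p n) M) :
    ∃ r, IsBundle (LT.heightIdeal p n h) (if h < n then LT.heightIdeal p n (h + 1) else ⊤) M r := by
  obtain ⟨hU, hfin, hc⟩ := hπ
  exact (ichain hn hΓ hF hH π hU hfin).bundle hh (bundle hρ) hM

theorem reg_iff (N : Type*) [AddCommGroup N] [Module (LT.E0 p n) N] (h : ℕ) :
    Reg (coord p n h) ((LT.E0 p n ⧸ LT.heightIdeal p n h) ⊗[LT.E0 p n] N) ↔
      ∀ x : N, coord p n h • x ∈ (LT.heightIdeal p n h • ⊤ : Submodule (LT.E0 p n) N) →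
        x ∈ (LT.heightIdeal p n h • ⊤ : Submodule (LT.E0 p n) N) := by
  let e := TensorProduct.quotTensorEquivQuotSMul N (LT.heightIdeal p n h)
  constructor
  · intro hr x hx
    have h1 : coord p n h • e.symm (Submodule.Quotient.mk x) = 0 := by
      rw [← map_smul, ← Submodule.Quotient.mk_smul, (Submodule.Quotient.mk_eq_zero _).2 hx,
        map_zero]
    have h2 := hr _ h1
    rwa [LinearEquiv.map_eq_zero_iff, Submodule.Quotient.mk_eq_zero] at h2
  · intro hr z hz
    obtain ⟨x, hx⟩ := Submodule.Quotient.mk_surjective _ (e z)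
    have h1 : coord p n h • e z = 0 := by rw [← map_smul, hz, map_zero]
    rw [← hx, ← Submodule.Quotient.mk_smul, Submodule.Quotient.mk_eq_zero] at h1
    have h2 := hr x h1
    rw [← Submodule.Quotient.mk_eq_zero, hx, LinearEquiv.map_eq_zero_iff] at h2
    exact h2

theorem main_landweber (hn : 1 ≤ n) (hΓ : LT.IsHonda p n Γ) (hF : LT.IsUniversal p n Γ F)
    (hH : LT.HeightAdapted p n F)
    (π : 𝔾 →* RingAut (LT.E0 p n)) (hπ : ActsThrough p n Γ F π)
    (N : Type*) [AddCommGroup N] [Module (LT.E0 p n) N] :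
    IsLandweberExact p n π N ↔ IsRegularOn p n N := by
  obtain ⟨hU, hfin, hc⟩ := hπ
  have hC := ichain hn hΓ hF hH π hU hfin
  have hnoeth : IsNoetherianRing (LT.E0 p n) := inferInstance
  constructor
  · intro h k hk
    rw [← reg_iff N k]
    refine (isGen hn).reg_of_exact hC hc N ?_ k hk.le
    intro M' M f hf hinj
    exact h _ _ _ _ f (isEqModule M') (isEqModule M) hf hinj
  · intro h M' M _ _ _ _ ρ' ρ f hρ' hρ hf hinj
    refine (isGen hn).exact_of_reg hC N ?_ (bundle hρ') (bundle hρ) f hf hinj
    intro k hk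
    rcases hk.lt_or_eq with h1 | rfl
    · rw [reg_iff]
      exact h k h1
    · intro z hz
      rwa [coord, if_neg (by omega), dif_neg (by omega), one_smul] at hz

end Vale.Agent.P217.H934
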