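import Vale.Agent.P217.H934.Supp

/-!
# P217 (helper934): equivariant modules are vector bundles on the strata
-/

namespace Vale.Agent.P217.H934

open Topology EqModule

section Alg

variable {R : Type*} [CommRing R] {M : Type*} [AddCommGroup M] [Module R M]

/-- `m` is a basis of `M` over `R/A` after inverting `f`. -/
def IsBasisAway (A : Ideal R) (f : R) {r : ℕ} (m : Fin r → M) : Prop :=
  (∀ x : M, f • x ∈ Submodule.span R (Set.range m)) ∧
    ∀ a : Fin r → R, ∑ i, a i • m i = 0 → ∀ i, a i ∈ A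

theorem exists_generic_basis {A : Ideal R} (hA : A.IsPrime) [Module.Finite R M]
    (hM : A ≤ Module.annihilator R M) :
    ∃ (r : ℕ) (f : R) (m : Fin r → M), f ∉ A ∧ IsBasisAway A f m := by
  classical
  obtain ⟨s, hs⟩ := (Module.Finite.fg_top : (⊤ : Submodule R M).FG)
  let LI : Finset M → Prop := fun t => ∀ a : M → R, ∑ x ∈ t, a x • x = 0 → ∀ x ∈ t, a x ∈ A
  have hne : (s.powerset.filter LI).Nonempty :=
    ⟨∅, by simp [LI]⟩
  obtain ⟨t, ht, hmax⟩ := Finset.exists_max_image _ Finset.card hne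
  rw [Finset.mem_filter, Finset.mem_powerset] at ht
  obtain ⟨hts, hLI⟩ := ht
  have key : ∀ x ∈ s, ∃ c : R, c ∉ A ∧ c • x ∈ Submodule.span R (t : Set M) := by
    intro x hx
    by_cases hxt : x ∈ t
    · exact ⟨1, fun h => hA.ne_top ((Ideal.eq_top_iff_one _).2 h),
        Submodule.smul_mem _ _ (Submodule.subset_span hxt)⟩
    · have h1 : ¬ LI (insert x t) := by
        intro h2
        have h3 := hmax (insert x t) (by
          rw [Finset.mem_filter, Finset.mem_powerset]
          exact ⟨Finset.insert_subset hx hts, h2⟩)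
        rw [Finset.card_insert_of_notMem hxt] at h3
        omega
      simp only [LI] at h1
      push Not at h1
      obtain ⟨a, ha, y, hy, hya⟩ := h1
      rw [Finset.sum_insert hxt] at ha
      have hax : a x ∉ A := by
        intro h2
        have h3 : a x • x = 0 := Module.mem_annihilator.1 (hM h2) x
        rw [h3, zero_add] at ha
        rcases Finset.mem_insert.1 hy with h4 | h4
        · exact hya (h4 ▸ h2)
        · exact hya (hLI a ha y h4)
      refine ⟨a x, hax, ?_⟩
      rw [eq_neg_of_add_eq_zero_left ha]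
      exact Submodule.neg_mem _ (Submodule.sum_mem _ fun z hz =>
        Submodule.smul_mem _ _ (Submodule.subset_span hz))
  choose c hc1 hc2 using key
  refine ⟨t.card, ∏ x ∈ s.attach, c x x.2, fun i => (t.equivFin.symm i : M), ?_, ?_, ?_⟩
  · intro h
    rw [hA.prod_mem_iff] at h
    obtain ⟨x, -, hx⟩ := h
    exact hc1 _ _ hx
  · have hr : Set.range (fun i => (t.equivFin.symm i : M)) = (t : Set M) := by
      ext x
      constructor
      · rintro ⟨i, rfl⟩
        exact (t.equivFin.symm i).2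
      · intro hx
        exact ⟨t.equivFin ⟨x, hx⟩, by simp⟩
    rw [hr]
    intro x
    have hx : x ∈ Submodule.span R (s : Set M) := by rw [hs]; trivial
    induction hx using Submodule.span_induction with
    | mem x hx =>
      obtain ⟨d, hd⟩ := Finset.dvd_prod_of_mem (fun x : s => c x x.2) (Finset.mem_attach s ⟨x, hx⟩)
      rw [hd, mul_comm, mul_smul]
      exact Submodule.smul_mem _ _ (hc2 x hx)
    | zero => rw [smul_zero]; exact Submodule.zero_mem _
    | add x y _ _ hx hy => rw [smul_add]; exact Submodule.add_mem _ hx hy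
    | smul a x _ hx => rw [smul_comm]; exact Submodule.smul_mem _ _ hx
  · intro a ha i
    let a' : M → R := fun x => if h : x ∈ t then a (t.equivFin ⟨x, h⟩) else 0
    have h1 : ∑ x ∈ t, a' x • x = 0 := by
      rw [← ha, ← Finset.sum_coe_sort t, ← Equiv.sum_comp t.equivFin.symm]
      refine Finset.sum_congr rfl fun j _ => ?_
      have h2 : a' (t.equivFin.symm j : M) = a j := by
        simp only [a']
        rw [dif_pos (t.equivFin.symm j).2]
        simp
      rw [h2]
    have h3 := hLI a' h1 _ (t.equivFin.symm i).2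
    have h4 : a' (t.equivFin.symm i : M) = a i := by
      simp only [a']
      rw [dif_pos (t.equivFin.symm i).2]
      simp
    rwa [h4] at h3

theorem IsBasisAway.exists_map {A : Ideal R} (hM : A ≤ Module.annihilator R M) {f : R} {r : ℕ}
    {m : Fin r → M} (h : IsBasisAway A f m) :
    ∃ φ : (Fin r → R ⧸ A) →ₗ[R] M, Function.Injective φ ∧ ∀ x, ∃ y, φ y = f • x := by
  have hk : ∀ i, A ≤ LinearMap.ker (LinearMap.toSpanSingleton R M (m i)) := by
    intro i a ha
    rw [LinearMap.mem_ker, LinearMap.toSpanSingleton_apply]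
    exact Module.mem_annihilator.1 (hM ha) _
  let φ : (Fin r → R ⧸ A) →ₗ[R] M :=
    ∑ i, (Submodule.liftQ A (LinearMap.toSpanSingleton R M (m i)) (hk i)).comp (LinearMap.proj i)
  have hφ : ∀ a : Fin r → R, φ (fun i => Submodule.mkQ A (a i)) = ∑ i, a i • m i := by
    intro a
    simp only [φ, LinearMap.sum_apply, LinearMap.comp_apply, LinearMap.proj_apply]
    refine Finset.sum_congr rfl fun i _ => ?_
    rw [Submodule.mkQ_apply, Submodule.liftQ_apply, LinearMap.toSpanSingleton_apply]
  refine ⟨φ, ?_, ?_⟩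
  · rw [injective_iff_map_eq_zero]
    intro y hy
    have hy' : ∀ i, ∃ a, Submodule.mkQ A a = y i := fun i => Submodule.mkQ_surjective A (y i)
    choose a ha using hy'
    have h1 : y = fun i => Submodule.mkQ A (a i) := funext fun i => (ha i).symm
    rw [h1, hφ] at hy
    rw [h1]
    funext i
    exact (Submodule.Quotient.mk_eq_zero A).2 (h.2 a hy i)
  · intro x
    obtain ⟨a, ha⟩ := (Submodule.mem_span_range_iff_exists_fun R).1 (h.1 x)
    exact ⟨_, (hφ a).trans ha⟩

theorem IsBasisAway.exists_maps {A : Ideal R} (hM : A ≤ Module.annihilator R M) {f : R} {r : ℕ}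
    {m : Fin r → M} (h : IsBasisAway A f m) :
    ∃ (α : M →ₗ[R] (Fin r → R ⧸ A)) (β : (Fin r → R ⧸ A) →ₗ[R] M), ∀ x, β (α x) = f • x := by
  obtain ⟨φ, hφ, hs⟩ := h.exists_map hM
  have hmem : ∀ x, LinearMap.lsmul R M f x ∈ LinearMap.range φ := by
    intro x
    obtain ⟨y, hy⟩ := hs x
    exact ⟨y, hy⟩
  refine ⟨(LinearEquiv.ofInjective φ hφ).symm.toLinearMap.comp
    ((LinearMap.lsmul R M f).codRestrict (LinearMap.range φ) hmem), φ, fun x => ?_⟩
  have h1 := LinearEquiv.apply_symm_apply (LinearEquiv.ofInjective φ hφ)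
    ((LinearMap.lsmul R M f).codRestrict (LinearMap.range φ) hmem x)
  exact congrArg Subtype.val h1

theorem free_at {A : Ideal R} (hM : A ≤ Module.annihilator R M) {f : R} {r : ℕ} {m : Fin r → M}
    (h : IsBasisAway A f m) (P : Ideal R) [P.IsPrime] (hf : f ∉ P) :
    Nonempty (LocalizedModule P.primeCompl M ≃ₗ[R]
      (Fin r → LocalizedModule P.primeCompl (R ⧸ A))) := by
  obtain ⟨φ, hinj, hs⟩ := h.exists_map hM
  let S := P.primeCompl
  let g : (Fin r → R ⧸ A) →ₗ[R] (Fin r → LocalizedModule S (R ⧸ A)) :=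
    LinearMap.pi fun i => (LocalizedModule.mkLinearMap S (R ⧸ A)).comp (LinearMap.proj i)
  have hg : IsLocalizedModule S g := IsLocalizedModule.pi S _
  let ψ := IsLocalizedModule.map S g (LocalizedModule.mkLinearMap S M) φ
  have h1 : Function.Injective ψ := IsLocalizedModule.map_injective S g _ φ hinj
  have h2 : Function.Surjective ψ := by
    intro z
    obtain ⟨⟨x, s⟩, rfl⟩ := IsLocalizedModule.mk'_surjective S (LocalizedModule.mkLinearMap S M) z
    obtain ⟨y, hy⟩ := hs x
    refine ⟨IsLocalizedModule.mk' g y (⟨f, hf⟩ * s), ?_⟩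
    simp only [ψ, Function.uncurry_apply_pair]
    rw [IsLocalizedModule.map_mk', hy]
    exact IsLocalizedModule.mk'_cancel_left (LocalizedModule.mkLinearMap S M) x ⟨f, hf⟩ s
  exact ⟨(LinearEquiv.ofBijective ψ ⟨h1, h2⟩).symm⟩

end Alg

section Strata

variable {R : Type} [CommRing R] {𝔾 : Type*} [Group 𝔾] [TopologicalSpace 𝔾]
  {J : Ideal R} {π : 𝔾 →* RingAut R} {n : ℕ} {I : ℕ → Ideal R}

theorem IsBasisAway.act {A : Ideal R} (hA : ∀ (g : 𝔾), ∀ r ∈ A, π g r ∈ A) (M : EqModule J π)
    {f : R} {r : ℕ} {m : Fin r → M.carrier} (h : IsBasisAway A f m) (g : 𝔾) :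
    IsBasisAway A (π g f) (fun i => M.ρ g (m i)) := by
  constructor
  · intro x
    have h1 := h.1 (M.ρ g⁻¹ x)
    obtain ⟨a, ha⟩ := (Submodule.mem_span_range_iff_exists_fun R).1 h1
    have h2 := congrArg (M.ρ g) ha
    rw [map_sum, M.semilinear, ρ_apply_inv] at h2
    rw [← h2]
    refine Submodule.sum_mem _ fun i _ => ?_
    rw [M.semilinear]
    exact Submodule.smul_mem _ _ (Submodule.subset_span ⟨i, rfl⟩)
  · intro a ha i
    have h2 := congrArg (M.ρ g⁻¹) ha
    rw [map_sum, map_zero] at h2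
    have h3 : ∑ i, π g⁻¹ (a i) • m i = 0 := by
      rw [← h2]
      refine Finset.sum_congr rfl fun j _ => ?_
      rw [M.semilinear, ρ_inv_apply]
    have h4 := hA g _ (h.2 _ h3 i)
    rwa [π_apply_inv] at h4

/-- the ideal generated by `A` and the `f` such that `M` is free over `R/A` after inverting
`f`. -/
def basisIdeal (A : Ideal R) (M : Type*) [AddCommGroup M] [Module R M] (r : ℕ) : Ideal R :=
  Ideal.span ({f | ∃ m : Fin r → M, IsBasisAway A f m} ∪ A)

theorem IChain.basisIdeal (hC : IChain π n I) {h : ℕ} (hh : h ≤ n) (M : EqModule J π)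
    (hM : I h ≤ Module.annihilator R M.carrier) :
    ∃ r : ℕ, ext n I (h + 1) ≤ (basisIdeal (I h) M.carrier r).radical := by
  obtain ⟨r, f₀, m₀, hf₀, hm₀⟩ := exists_generic_basis (hC.prime h hh) hM
  refine ⟨r, ?_⟩
  set B := H934.basisIdeal (I h) M.carrier r with hB
  have hBinv : ∀ g : 𝔾, ∀ x ∈ B, π g x ∈ B := by
    intro g x hx
    have h1 : B ≤ B.comap (π g : R →+* R) := by
      refine Ideal.span_le.2 ?_
      rintro y (⟨m, hy⟩ | hy)
      · exact Ideal.subset_span (Or.inl ⟨_, hy.act (hC.inv h hh) M g⟩)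
      · exact Ideal.subset_span (Or.inr (hC.inv h hh g y hy))
    exact h1 hx
  have hBrad : ∀ g : 𝔾, ∀ x ∈ B.radical, π g x ∈ B.radical := by
    rintro g x ⟨k, hk⟩
    exact ⟨k, by rw [← map_pow]; exact hBinv g _ hk⟩
  have hf₀B : f₀ ∈ B.radical := Ideal.le_radical (Ideal.subset_span (Or.inl ⟨m₀, hm₀⟩))
  have hIB : I h ≤ B.radical := fun x hx => Ideal.le_radical (Ideal.subset_span (Or.inr hx))
  have hlt : I h < B.radical := lt_of_le_of_ne hIB fun h1 => hf₀ (h1 ▸ hf₀B)
  rcases hC.classify _ (Ideal.radical_isRadical B) hBrad with h1 | ⟨h', hh', h1⟩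
  · rw [h1]
    exact le_top
  · rw [h1] at hlt ⊢
    have h2 : h < h' := by
      by_contra h2
      rw [not_lt] at h2
      rcases h2.lt_or_eq with h3 | h3
      · exact absurd (hlt.trans (hC.lt _ _ h3 hh)) (lt_irrefl _)
      · rw [h3] at hlt
        exact lt_irrefl _ hlt
    rw [ext, if_pos (by omega)]
    rcases (Nat.succ_le_of_lt h2).lt_or_eq with h3 | h3
    · exact (hC.lt _ _ h3 hh').le
    · rw [← h3]

/-- an equivariant module killed by `I_h` is a vector bundle away from `I_(h+1)`. -/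
theorem IChain.bundle (hC : IChain π n I) {h : ℕ} (hh : h ≤ n) (M : EqModule J π)
    (hM : I h ≤ Module.annihilator R M.carrier) :
    ∃ r : ℕ, ∀ (P : Ideal R) [P.IsPrime], I h ≤ P → ¬ ext n I (h + 1) ≤ P →
      Nonempty (LocalizedModule P.primeCompl M.carrier ≃ₗ[R]
        (Fin r → LocalizedModule P.primeCompl (R ⧸ I h))) := by
  obtain ⟨r, hr⟩ := hC.basisIdeal hh M hM
  refine ⟨r, fun P hP hP1 hP2 => ?_⟩
  have hBP : ¬ H934.basisIdeal (I h) M.carrier r ≤ P := fun h1 =>
    hP2 (hr.trans ((Ideal.IsPrime.radical_le_iff hP).2 h1))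
  have hex : ∃ f, (∃ m : Fin r → M.carrier, IsBasisAway (I h) f m) ∧ f ∉ P := by
    by_contra hcon
    push Not at hcon
    apply hBP
    refine Ideal.span_le.2 ?_
    rintro y (⟨m, hy⟩ | hy)
    · exact hcon y ⟨m, hy⟩
    · exact hP1 hy
  obtain ⟨f, ⟨m, hm⟩, hf⟩ := hex
  exact free_at hM hm P hf

end Strata

end Vale.Agent.P217.H934
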