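import Vale.Agent.P217.H934.Abs

/-!
# P217 (helper934): supports of tensor products; the standard classes are prime
-/

namespace Vale.Agent.P217.H934

open Topology TensorProduct EqModule

theorem subsingleton_tensor_left {R M N : Type*} [CommRing R] [AddCommGroup M] [AddCommGroup N]
    [Module R M] [Module R N] [Subsingleton M] : Subsingleton (M ⊗[R] N) := by
  refine ⟨fun x y => ?_⟩
  have h : ∀ x : M ⊗[R] N, x = 0 := by
    intro x
    induction x using TensorProduct.induction_on with
    | zero => rfl
    | tmul a b => rw [Subsingleton.elim a 0, zero_tmul]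
    | add x y hx hy => rw [hx, hy, add_zero]
  rw [h x, h y]

theorem subsingleton_tensor_right {R M N : Type*} [CommRing R] [AddCommGroup M] [AddCommGroup N]
    [Module R M] [Module R N] [Subsingleton N] : Subsingleton (M ⊗[R] N) := by
  refine ⟨fun x y => ?_⟩
  have h : ∀ x : M ⊗[R] N, x = 0 := by
    intro x
    induction x using TensorProduct.induction_on with
    | zero => rfl
    | tmul a b => rw [Subsingleton.elim b 0, tmul_zero]
    | add x y hx hy => rw [hx, hy, add_zero]
  rw [h x, h y]

theorem support_tensor {R M N : Type*} [CommRing R] [AddCommGroup M] [AddCommGroup N] [Module R M]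
    [Module R N] [Module.Finite R M] [Module.Finite R N] :
    Module.support R (M ⊗[R] N) = Module.support R M ∩ Module.support R N := by
  ext P
  rw [Set.mem_inter_iff, Module.mem_support_iff_nontrivial_residueField_tensorProduct,
    Module.mem_support_iff_nontrivial_residueField_tensorProduct,
    Module.mem_support_iff_nontrivial_residueField_tensorProduct]
  rw [(AlgebraTensorModule.distribBaseChange R P.asIdeal.ResidueField M N).toEquiv.nontrivial_congr]
  constructor
  · intro h
    by_contra hcon
    rw [not_and_or, not_nontrivial_iff_subsingleton, not_nontrivial_iff_subsingleton] at hcon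
    rcases hcon with h1 | h1
    · exact not_subsingleton_iff_nontrivial.2 h
        subsingleton_tensor_left
    · exact not_subsingleton_iff_nontrivial.2 h
        subsingleton_tensor_right
  · rintro ⟨h1, h2⟩
    infer_instance

variable {R : Type} [CommRing R] {𝔾 : Type*} [Group 𝔾] [TopologicalSpace 𝔾]
  {J : Ideal R} {π : 𝔾 →* RingAut R}

theorem rad_tensor {M N T : EqModule J π} (hT : IsTensor M N T) :
    (Module.annihilator R T.carrier).radical =
      (Module.annihilator R M.carrier ⊔ Module.annihilator R N.carrier).radical := by
  rw [hT.ann_eq, ← PrimeSpectrum.zeroLocus_eq_iff, ← Module.support_eq_zeroLocus, support_tensor,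
    Module.support_eq_zeroLocus, Module.support_eq_zeroLocus, PrimeSpectrum.zeroLocus_sup]

variable [IsNoetherianRing R] {n : ℕ} {I : ℕ → Ideal R}

theorem IChain.prime_class (hC : IChain π n I) {M N T : EqModule J π} (hT : IsTensor M N T)
    (h : ℕ) :
    (∃ k : ℕ, ext n I h ^ k ≤ Module.annihilator R T.carrier) ↔
      (∃ k : ℕ, ext n I h ^ k ≤ Module.annihilator R M.carrier) ∨
      ∃ k : ℕ, ext n I h ^ k ≤ Module.annihilator R N.carrier := by
  rw [pow_iff, pow_iff, pow_iff, rad_tensor hT]
  have hsup : (Module.annihilator R M.carrier ⊔ Module.annihilator R N.carrier).radical =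
      ((Module.annihilator R M.carrier).radical ⊔ (Module.annihilator R N.carrier).radical).radical :=
    Ideal.radical_sup _ _
  have hle : ∀ a, a ≤ n → ¬ ext n I h ≤ I a → a < h := by
    intro a ha h1
    by_contra h2
    rw [not_lt] at h2
    apply h1
    rw [ext, if_pos (h2.trans ha)]
    rcases h2.lt_or_eq with h3 | h3
    · exact (hC.lt _ _ h3 ha).le
    · rw [h3]
  have hnle : ∀ a, a ≤ n → a < h → ¬ ext n I h ≤ I a := by
    intro a ha hah h1
    rw [ext] at h1
    split_ifs at h1 with h2
    · exact (hC.lt _ _ hah h2).not_ge h1
    · exact (hC.prime a ha).ne_top (top_le_iff.1 h1)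
  constructor
  · intro h1
    by_contra hcon
    rw [not_or] at hcon
    obtain ⟨h2, h3⟩ := hcon
    rcases hC.cases M with h4 | ⟨a, ha, h4⟩
    · rw [Module.annihilator_eq_top_iff.2 h4, Ideal.radical_top] at h2
      exact h2 le_top
    rcases hC.cases N with h5 | ⟨b, hb, h5⟩
    · rw [Module.annihilator_eq_top_iff.2 h5, Ideal.radical_top] at h3
      exact h3 le_top
    rw [h4] at h2
    rw [h5] at h3
    have h6 := hle a ha h2
    have h7 := hle b hb h3
    rw [hsup, h4, h5] at h1
    rcases le_total a b with hab | hab
    · have h8 : I a ⊔ I b = I b := by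
        rw [sup_eq_right]
        rcases hab.lt_or_eq with h9 | h9
        · exact (hC.lt _ _ h9 hb).le
        · rw [h9]
      rw [h8, (hC.prime b hb).radical] at h1
      exact hnle b hb h7 h1
    · have h8 : I a ⊔ I b = I a := by
        rw [sup_eq_left]
        rcases hab.lt_or_eq with h9 | h9
        · exact (hC.lt _ _ h9 ha).le
        · rw [h9]
      rw [h8, (hC.prime a ha).radical] at h1
      exact hnle a ha h6 h1
  · rintro (h1 | h1)
    · exact h1.trans (Ideal.radical_mono le_sup_left)
    · exact h1.trans (Ideal.radical_mono le_sup_right)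

end Vale.Agent.P217.H934
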